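import Vale.Agent.P272.K.N.Hess
import Mathlib.Analysis.Calculus.DerivativeTest
import Mathlib.Analysis.SpecialFunctions.ContinuousFunctionalCalculus.Rpow.Basic
import Mathlib.Analysis.Matrix.Spectrum

/-! Second order conditions at a maximum and monotonicity of the determinant (block N). -/

open scoped Manifold ContDiff ComplexOrder Topology
open Complex Filter

noncomputable section

namespace Vale.Agent.P272.K.N

open Vale.Agent.P272.K

/-- At a local maximum the Hessian is nonpositive. -/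
theorem second_deriv_nonpos {E : Type*} [NormedAddCommGroup E] [NormedSpace ℝ E] {f : E → ℝ} {z : E}
    (hf : ∀ᶠ y in 𝓝 z, DifferentiableAt ℝ f y) (hf2 : DifferentiableAt ℝ (fderiv ℝ f) z)
    (hmax : IsLocalMax f z) (v : E) : fderiv ℝ (fderiv ℝ f) z v v ≤ 0 := by
  by_contra hcon
  push Not at hcon
  let c : ℝ → E := fun t => z + t • v
  have hc0 : c 0 = z := by simp [c]
  have hcd : ∀ t, HasDerivAt c v t := by
    intro t
    simpa [c] using ((hasDerivAt_id t).smul_const v).const_add z
  have hcc : Continuous c := by fun_prop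
  have hct : Tendsto c (𝓝 0) (𝓝 z) := by
    simpa [hc0] using hcc.tendsto 0
  let g : ℝ → ℝ := fun t => f (c t)
  have hg1 : ∀ᶠ t in 𝓝 (0:ℝ), deriv g t = fderiv ℝ f (c t) v := by
    filter_upwards [hct.eventually hf] with t ht
    exact (ht.hasFDerivAt.comp_hasDerivAt t (hcd t)).deriv
  have hg2 : deriv (deriv g) 0 = fderiv ℝ (fderiv ℝ f) z v v := by
    rw [Filter.EventuallyEq.deriv_eq hg1]
    have h1 : HasFDerivAt (fderiv ℝ f) (fderiv ℝ (fderiv ℝ f) z) (c 0) := by
      rw [hc0]; exact hf2.hasFDerivAt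
    have h2 := h1.comp_hasDerivAt (0:ℝ) (hcd 0)
    have h3 := (ContinuousLinearMap.apply ℝ ℝ v).hasFDerivAt.comp_hasDerivAt (0:ℝ) h2
    simpa [Function.comp_def] using h3.deriv
  have hgmax : IsLocalMax g 0 := by
    have : ∀ᶠ t in 𝓝 (0:ℝ), f (c t) ≤ f z := hct.eventually hmax
    filter_upwards [this] with t ht
    simpa [g, hc0] using ht
  have hgd : deriv g 0 = 0 := hgmax.deriv_eq_zero
  have hgc : ContinuousAt g 0 := by
    have : ContinuousAt f (c 0) := by rw [hc0]; exact hf.self_of_nhds.continuousAt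
    exact ContinuousAt.comp (f := c) this hcc.continuousAt
  have hgmin : IsLocalMin g 0 := isLocalMin_of_deriv_deriv_pos (by rw [hg2]; exact hcon) hgd hgc
  have hconst : g =ᶠ[𝓝 0] fun _ => g 0 := by
    filter_upwards [hgmax, hgmin] with t h1 h2
    exact le_antisymm h1 h2
  have hd1 : deriv g =ᶠ[𝓝 0] fun _ => 0 := by
    filter_upwards [hconst.eventuallyEq_nhds] with t ht
    rw [ht.deriv_eq]; simp
  have : deriv (deriv g) 0 = 0 := by
    rw [hd1.deriv_eq]; simp
  rw [hg2] at this
  exact hcon.ne' this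

theorem fderiv_fderiv_symm {E : Type*} [NormedAddCommGroup E] [NormedSpace ℝ E] {f : E → ℝ} {z : E}
    (hf : ContDiffAt ℝ 2 f z) (v w : E) :
    fderiv ℝ (fderiv ℝ f) z v w = fderiv ℝ (fderiv ℝ f) z w v := by
  have := hf.isSymmSndFDerivAt (by simp [minSmoothness_of_isRCLikeNormedField])
  exact this v w

/-- At a local maximum the complex Hessian is negative semidefinite. -/
theorem neg_cHess_posSemidef {n : ℕ} {f : Cm n → ℝ} {z : Cm n} (hf : ContDiffAt ℝ 2 f z)
    (hmax : IsLocalMax f z) : (-cHess f z).PosSemidef := by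
  have h1 : ∀ᶠ y in 𝓝 z, DifferentiableAt ℝ f y := by
    filter_upwards [hf.eventually (by simp)] with y hy
    exact hy.differentiableAt (by simp)
  have h2 : DifferentiableAt ℝ (fderiv ℝ f) z :=
    (hf.fderiv_right (m := 1) (by norm_num)).differentiableAt (by simp)
  rw [cHess_eq_lev h2, ← lev_neg]
  refine lev_posSemidef (fun v w => ?_) fun v => ?_
  · simp [fderiv_fderiv_symm hf v w]
  · simpa using second_deriv_nonpos h1 h2 hmax v

/-- `det (1 + C) ≥ 1` for `C ≥ 0`. -/
theorem one_le_det_one_add {n : ℕ} {C : Matrix (Fin n) (Fin n) ℂ} (hC : C.PosSemidef) :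
    1 ≤ (1 + C).det.re ∧ (1 + C).det.im = 0 := by
  have hs := hC.1.spectral_theorem
  have hdet : (1 + C).det = ((∏ i, (1 + hC.1.eigenvalues i) : ℝ) : ℂ) := by
    set U : Matrix (Fin n) (Fin n) ℂ := (hC.1.eigenvectorUnitary : Matrix (Fin n) (Fin n) ℂ) with hU
    have hUU : U * star U = 1 := Unitary.coe_mul_star_self _
    have h1 : (1 + C) = U * (1 + Matrix.diagonal (RCLike.ofReal ∘ hC.1.eigenvalues)) * star U := by
      rw [mul_add, add_mul, mul_one, hUU]
      congr 1
    have h2 : (U * star U).det = 1 := by rw [hUU, Matrix.det_one]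
    rw [Matrix.det_mul] at h2
    rw [h1, Matrix.det_mul, Matrix.det_mul, mul_right_comm, h2, one_mul, ← Matrix.diagonal_one,
      Matrix.diagonal_add, Matrix.det_diagonal]
    simp
  rw [hdet]
  refine ⟨?_, Complex.ofReal_im _⟩
  rw [Complex.ofReal_re]
  have : ∏ i : Fin n, (1:ℝ) ≤ ∏ i, (1 + hC.1.eigenvalues i) :=
    Finset.prod_le_prod (fun _ _ => zero_le_one) fun i _ => by
      have := hC.eigenvalues_nonneg i; linarith
  simpa using this

open scoped MatrixOrder in
/-- `det` is monotone on positive definite matrices. -/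
theorem det_re_le {n : ℕ} {A B : Matrix (Fin n) (Fin n) ℂ} (hA : A.PosDef) (hAB : (B - A).PosSemidef) :
    A.det.re ≤ B.det.re := by
  obtain ⟨y, hy⟩ := CStarAlgebra.nonneg_iff_eq_star_mul_self.mp hA.posSemidef.nonneg
  have hAdet : A.det ≠ 0 := hA.det_pos.ne'
  have hydet : IsUnit y.det := by
    rw [isUnit_iff_ne_zero]
    intro h
    apply hAdet
    rw [hy, Matrix.det_mul, h, mul_zero]
  have hD : (Matrix.conjTranspose y⁻¹ * (B - A) * y⁻¹).PosSemidef := hAB.conjTranspose_mul_mul_same _
  obtain ⟨h1, h2⟩ := one_le_det_one_add hD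
  set D := Matrix.conjTranspose y⁻¹ * (B - A) * y⁻¹ with hDdef
  have hB : B = star y * (1 + D) * y := by
    rw [mul_add, add_mul, mul_one, ← hy, hDdef]
    have e1 : star y * (Matrix.conjTranspose y⁻¹ * (B - A) * y⁻¹) * y =
        (star y * Matrix.conjTranspose y⁻¹) * (B - A) * (y⁻¹ * y) := by noncomm_ring
    rw [e1, Matrix.nonsing_inv_mul _ hydet]
    have e2 : star y * Matrix.conjTranspose y⁻¹ = 1 := by
      rw [Matrix.star_eq_conjTranspose, ← Matrix.conjTranspose_mul, Matrix.nonsing_inv_mul _ hydet,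
        Matrix.conjTranspose_one]
    rw [e2]; simp
  have hBdet : B.det = A.det * (1 + D).det := by
    rw [hB, Matrix.det_mul, Matrix.det_mul]
    conv_rhs => rw [hy, Matrix.det_mul]
    ring
  have hA0 : 0 ≤ A.det.re := (Complex.pos_iff.1 hA.det_pos).1.le
  rw [hBdet, Complex.mul_re, h2, mul_zero, sub_zero]
  nlinarith

end Vale.Agent.P272.K.N
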