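import Vale.Agent.P272.K.Iface
import Vale.Agent.P272.K.N.MaxP

/-! Comparison principle for the complex Monge-Ampère equation (block N). -/

open scoped Manifold ContDiff ComplexOrder Topology
open Complex Filter

noncomputable section

namespace Vale.Agent.P272.K.N

open Vale.Agent.P272.K

section
variable {n : ℕ} {X : Type*} [TopologicalSpace X] [ChartedSpace (Cm n) X]

/-- real function on `X` of class `C²` in charts -/
def C2Fn (u : X → ℝ) : Prop :=
  ∀ (e : Chart n X) (x : X), At e x → ContDiffAt ℝ 2 (fun z => u (e.symm z)) (e x)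

theorem C2Fn.continuous {u : X → ℝ} (hu : C2Fn (n := n) u) : Continuous u := by
  rw [continuous_iff_continuousAt]
  intro x
  let e : Chart n X := chartAt (Cm n) x
  have hx : x ∈ e.source := mem_chart_source (Cm n) x
  have h1 : ContinuousAt (fun z => u (e.symm z)) (e x) :=
    (hu e x ⟨chart_mem_atlas (Cm n) x, hx⟩).continuousAt
  have h2 : ContinuousAt (fun y => u (e.symm (e y))) x :=
    ContinuousAt.comp (g := fun z => u (e.symm z)) (f := e) h1 (e.continuousAt hx)
  refine h2.congr ?_
  filter_upwards [e.open_source.mem_nhds hx] with y hy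
  rw [e.left_inv hy]

theorem _root_.Vale.Agent.P272.K.SmoothFn.c2Fn {u : X → ℝ} (hu : SmoothFn (n := n) u) :
    C2Fn (n := n) u := fun e x h => (hu e x h).of_le (by norm_cast)

theorem diffble2 {f : Cm n → ℝ} {z : Cm n} (hf : ContDiffAt ℝ 2 f z) :
    DifferentiableAt ℝ (fderiv ℝ f) z :=
  (hf.fderiv_right (m := 1) (by norm_num)).differentiableAt (by simp)

theorem diffble1 {f : Cm n → ℝ} {z : Cm n} (hf : ContDiffAt ℝ 2 f z) :
    ∀ᶠ y in 𝓝 z, DifferentiableAt ℝ f y := by
  filter_upwards [hf.eventually (by simp)] with y hy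
  exact hy.differentiableAt (by simp)

theorem fderiv2_sub {f g : Cm n → ℝ} {z : Cm n} (hf : ContDiffAt ℝ 2 f z)
    (hg : ContDiffAt ℝ 2 g z) : fderiv ℝ (fderiv ℝ fun y => f y - g y) z =
      fderiv ℝ (fderiv ℝ f) z - fderiv ℝ (fderiv ℝ g) z := by
  have h : (fderiv ℝ fun y => f y - g y) =ᶠ[𝓝 z] fun y => fderiv ℝ f y - fderiv ℝ g y := by
    filter_upwards [diffble1 hf, diffble1 hg] with y h1 h2
    exact fderiv_fun_sub h1 h2
  rw [h.fderiv_eq]
  exact fderiv_fun_sub (diffble2 hf) (diffble2 hg)

theorem cHess_sub' {f g : Cm n → ℝ} {z : Cm n} (hf : ContDiffAt ℝ 2 f z)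
    (hg : ContDiffAt ℝ 2 g z) : cHess (fun y => f y - g y) z = cHess f z - cHess g z := by
  rw [cHess_eq_lev (diffble2 (hf.sub hg)), cHess_eq_lev (diffble2 hf), cHess_eq_lev (diffble2 hg),
    fderiv2_sub hf hg, lev_sub]

variable [CompactSpace X]

/-- **Comparison principle.** -/
theorem comparison {χ : Chart n X → Cm n → Matrix (Fin n) (Fin n) ℂ} {u v f g : X → ℝ}
    (hu : C2Fn (n := n) u) (hv : C2Fn (n := n) v)
    (hup : ∀ e x, At e x → (addH χ u e (e x)).PosDef)
    (heu : ∀ e x, At e x →
      Real.log (addH χ u e (e x)).det.re - Real.log (χ e (e x)).det.re = u x + f x)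
    (hev : ∀ e x, At e x →
      Real.log (addH χ v e (e x)).det.re - Real.log (χ e (e x)).det.re = v x + g x)
    {M : ℝ} (hM : ∀ x, g x - f x ≤ M) (x : X) : u x - v x ≤ M := by
  have hcont : Continuous fun y => u y - v y := hu.continuous.sub hv.continuous
  obtain ⟨x0, -, hx0⟩ := isCompact_univ.exists_isMaxOn ⟨x, Set.mem_univ x⟩ hcont.continuousOn
  have hmax : ∀ y, u y - v y ≤ u x0 - v x0 := fun y => hx0 (Set.mem_univ y)
  let e : Chart n X := chartAt (Cm n) x0
  have hs : x0 ∈ e.source := mem_chart_source (Cm n) x0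
  have hAt : At e x0 := ⟨chart_mem_atlas (Cm n) x0, hs⟩
  have h1 := hu e x0 hAt
  have h2 := hv e x0 hAt
  have hloc : IsLocalMax (fun z => u (e.symm z) - v (e.symm z)) (e x0) := by
    refine Eventually.of_forall fun z => ?_
    simp only [e.left_inv hs]
    exact hmax _
  have h3 := neg_cHess_posSemidef (h1.sub h2) hloc
  rw [cHess_sub' h1 h2] at h3
  have h4 : (addH χ v e (e x0) - addH χ u e (e x0)).PosSemidef := by
    have : addH χ v e (e x0) - addH χ u e (e x0) =
        -(cHess (fun z => u (e.symm z)) (e x0) - cHess (fun z => v (e.symm z)) (e x0)) := by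
      simp only [addH]
      abel
    rw [this]; exact h3
  have h5 := det_re_le (hup e x0 hAt) h4
  have h6 : 0 < (addH χ u e (e x0)).det.re := (Complex.pos_iff.1 (hup e x0 hAt).det_pos).1
  have h7 := Real.log_le_log h6 h5
  have h8 := heu e x0 hAt
  have h9 := hev e x0 hAt
  have h10 := hM x0
  have h11 := hmax x
  linarith

theorem cHess_const (c : ℝ) (z : Cm n) : cHess (fun _ => c) z = 0 := by
  rw [cHess_eq_lev (by simp [show fderiv ℝ (fun _ : Cm n => c) = fun _ => 0 from by
    ext1 y; simp])]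
  have : fderiv ℝ (fun _ : Cm n => c) = fun _ => 0 := by ext1 y; simp
  rw [this]
  ext j k
  simp [lev_apply]

omit [ChartedSpace (Cm n) X] [CompactSpace X] in
theorem addH_zero (χ : Chart n X → Cm n → Matrix (Fin n) (Fin n) ℂ) (e : Chart n X) (z : Cm n) :
    addH χ (fun _ => 0) e z = χ e z := by
  simp [addH, cHess_const]

omit [CompactSpace X] in
theorem c2Fn_const (c : ℝ) : C2Fn (n := n) (fun _ : X => c) := fun _ _ _ => contDiffAt_const

/-- `C⁰` estimate: a solution with right-hand side `u + f` is bounded by `sup |f|`. -/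
theorem abs_le_of_solution {χ : Chart n X → Cm n → Matrix (Fin n) (Fin n) ℂ} {u f : X → ℝ}
    (hχ : ∀ e x, At e x → (χ e (e x)).PosDef) (hu : C2Fn (n := n) u)
    (hup : ∀ e x, At e x → (addH χ u e (e x)).PosDef)
    (heu : ∀ e x, At e x →
      Real.log (addH χ u e (e x)).det.re - Real.log (χ e (e x)).det.re = u x + f x)
    {M : ℝ} (hM : ∀ x, |f x| ≤ M) (x : X) : |u x| ≤ M := by
  have h0 : ∀ e x, At e x → Real.log (addH χ (fun _ : X => (0:ℝ)) e (e x)).det.re -
      Real.log (χ e (e x)).det.re = (fun _ : X => (0:ℝ)) x + (fun _ : X => (0:ℝ)) x := by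
    intro e x _
    rw [addH_zero]; simp
  have hz := c2Fn_const (n := n) (X := X) 0
  have h0p : ∀ e x, At e x → (addH χ (fun _ : X => (0:ℝ)) e (e x)).PosDef := by
    intro e x h; rw [addH_zero]; exact hχ e x h
  rw [abs_le]
  constructor
  · have := comparison hz hu h0p h0 heu (M := M) (fun y => by
      have := abs_le.1 (hM y); simp; linarith) x
    linarith
  · have := comparison hu hz hup heu h0 (M := M) (fun y => by
      have := abs_le.1 (hM y); simp; linarith) x
    linarith

/-- Solutions of `log det (χ + i∂∂̄u) / det χ = u + sF` depend continuously (in `C⁰`) on `s`. -/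
theorem abs_sub_le_of_solution {χ : Chart n X → Cm n → Matrix (Fin n) (Fin n) ℂ}
    {u v F : X → ℝ} {s t : ℝ} (hu : C2Fn (n := n) u) (hv : C2Fn (n := n) v)
    (hup : ∀ e x, At e x → (addH χ u e (e x)).PosDef)
    (hvp : ∀ e x, At e x → (addH χ v e (e x)).PosDef)
    (heu : ∀ e x, At e x →
      Real.log (addH χ u e (e x)).det.re - Real.log (χ e (e x)).det.re = u x + s * F x)
    (hev : ∀ e x, At e x →
      Real.log (addH χ v e (e x)).det.re - Real.log (χ e (e x)).det.re = v x + t * F x)
    {M : ℝ} (hM : ∀ x, |F x| ≤ M) (x : X) : |u x - v x| ≤ |s - t| * M := by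
  have key : ∀ y, |t * F y - s * F y| ≤ |s - t| * M := fun y => by
    rw [← sub_mul, abs_mul, abs_sub_comm]
    exact mul_le_mul_of_nonneg_left (hM y) (abs_nonneg _)
  rw [abs_le]
  constructor
  · have := comparison hv hu hvp hev heu (M := |s - t| * M) (fun y => by
      have := abs_le.1 (key y); linarith) x
    linarith
  · exact comparison hu hv hup heu hev (M := |s - t| * M) (fun y => (abs_le.1 (key y)).2) x

end

end Vale.Agent.P272.K.N
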