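import Vale.Agent.P272.K.N.Phi
import Vale.Agent.P272.K.N.Compare

/-! Regularity of `C^{2,α}` solutions of the Monge-Ampère equation, from the local regularity
theorem (block R). -/

open scoped Manifold ContDiff ComplexOrder Topology
open Complex Filter Metric

set_option maxSynthPendingDepth 3

noncomputable section

namespace Vale.Agent.P272.K.N

open Vale.Agent.P272.K

/-- Statement of block R: `C^{2,α}` solutions of a smooth elliptic equation `Φ(x, w, D²w) = 0` are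
smooth. -/
def RegStatement (E : Type) [NormedAddCommGroup E] [NormedSpace ℝ E] (α : ℝ) : Prop :=
  ∀ (U : Set E) (_ : IsOpen U) (w : E → ℝ) (_ : ∀ x ∈ U, ContDiffAt ℝ 2 w x)
    (_ : ∀ x ∈ U, ∃ r > 0, ∃ C : ℝ, ∀ y ∈ ball x r, ∀ z ∈ ball x r,
      ‖fderiv ℝ (fderiv ℝ w) y - fderiv ℝ (fderiv ℝ w) z‖ ≤ C * ‖y - z‖ ^ α)
    (V : Set (E × ℝ × (E →L[ℝ] E →L[ℝ] ℝ))) (_ : IsOpen V)
    (Φ : E × ℝ × (E →L[ℝ] E →L[ℝ] ℝ) → ℝ) (_ : ∀ p ∈ V, ContDiffAt ℝ ∞ Φ p)
    (_ : ∀ x ∈ U, (x, w x, fderiv ℝ (fderiv ℝ w) x) ∈ V)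
    (_ : ∀ x ∈ U, Φ (x, w x, fderiv ℝ (fderiv ℝ w) x) = 0)
    (_ : ∀ x ∈ U, ∀ l : E →L[ℝ] ℝ, l ≠ 0 →
      0 < fderiv ℝ Φ (x, w x, fderiv ℝ (fderiv ℝ w) x) (0, 0, l.smulRight l)),
    ∀ x ∈ U, ContDiffAt ℝ ∞ w x

variable {n : ℕ}

theorem continuous_lev_det : Continuous fun B : Bil n => (fun j k => lev B j k) := by
  refine continuous_pi fun j => continuous_pi fun k => (contDiff_lev j k).continuous

/-- local form -/
theorem contDiffAt_of_equation {α : ℝ} (hReg : RegStatement (Cm n) α)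
    {U : Set (Cm n)} (hU : IsOpen U) {χ : Cm n → Matrix (Fin n) (Fin n) ℂ} {f w : Cm n → ℝ}
    (hχ : ∀ z ∈ U, ∀ i j, ContDiffAt ℝ ∞ (fun z => χ z i j) z) (hχp : ∀ z ∈ U, (χ z).PosDef)
    (hf : ∀ z ∈ U, ContDiffAt ℝ ∞ f z) (hw : ∀ z ∈ U, ContDiffAt ℝ 2 w z)
    (hH : ∀ x ∈ U, ∃ r > 0, ∃ C : ℝ, ∀ y ∈ ball x r, ∀ z ∈ ball x r,
      ‖fderiv ℝ (fderiv ℝ w) y - fderiv ℝ (fderiv ℝ w) z‖ ≤ C * ‖y - z‖ ^ α)
    (hp : ∀ z ∈ U, (χ z + cHess w z).PosDef)
    (he : ∀ z ∈ U, Real.log (χ z + cHess w z).det.re - Real.log (χ z).det.re = w z + f z) :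
    ∀ z ∈ U, ContDiffAt ℝ ∞ w z := by
  have hlev : ∀ z ∈ U, cHess w z = lev (fderiv ℝ (fderiv ℝ w) z) := fun z hz =>
    cHess_eq_lev (diffble2 (hw z hz))
  let d : Cm n × ℝ × Bil n → ℝ := fun p => (χ p.1 + lev p.2.2).det.re
  have hdc : ContinuousOn d (U ×ˢ Set.univ) := by
    intro p hp
    have h1 : ContinuousAt (fun p : Cm n × ℝ × Bil n => (χ p.1 + lev p.2.2).det) p := by
      simp only [Matrix.det_apply]
      refine tendsto_finsetSum _ fun σ _ => ?_
      refine Tendsto.const_smul ?_ _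
      refine tendsto_finsetProd _ fun i _ => ?_
      have h2 : ContinuousAt (fun p : Cm n × ℝ × Bil n => χ p.1 (σ i) i) p :=
        ContinuousAt.comp (g := fun z => χ z (σ i) i) (hχ p.1 hp.1 (σ i) i).continuousAt
          continuousAt_fst
      have h3 : ContinuousAt (fun p : Cm n × ℝ × Bil n => lev p.2.2 (σ i) i) p :=
        ((contDiff_lev (σ i) i).continuous.comp (continuous_snd.comp continuous_snd)).continuousAt
      exact h2.add h3
    exact (Complex.continuous_re.continuousAt.comp h1).continuousWithinAt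
  let V : Set (Cm n × ℝ × Bil n) := (U ×ˢ Set.univ) ∩ d ⁻¹' (Set.Ioi 0)
  have hV : IsOpen V := hdc.isOpen_inter_preimage (hU.prod isOpen_univ) isOpen_Ioi
  refine hReg U hU w hw hH V hV (Phi χ f) (fun p hp => ?_) (fun x hx => ?_) (fun x hx => ?_)
    fun x hx l hl => ?_
  · exact contDiffAt_Phi (hχ p.1 hp.1.1) (hf p.1 hp.1.1)
      (Complex.pos_iff.1 (hχp p.1 hp.1.1).det_pos).1.ne' (ne_of_gt hp.2)
  · refine ⟨⟨hx, Set.mem_univ _⟩, ?_⟩
    show 0 < (χ x + lev (fderiv ℝ (fderiv ℝ w) x)).det.re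
    rw [← hlev x hx]
    exact (Complex.pos_iff.1 (hp x hx).det_pos).1
  · show Real.log (χ x + lev (fderiv ℝ (fderiv ℝ w) x)).det.re - Real.log (χ x).det.re -
      w x - f x = 0
    rw [← hlev x hx]
    linarith [he x hx]
  · have h1 : (χ x + lev (fderiv ℝ (fderiv ℝ w) x)).PosDef := by
      rw [← hlev x hx]; exact hp x hx
    rw [fderiv_Phi (hχ x hx) (hf x hx) (Complex.pos_iff.1 (hχp x hx).det_pos).1.ne' h1]
    exact trace_inv_lev_pos h1 hl

section
variable {X : Type*} [TopologicalSpace X] [ChartedSpace (Cm n) X]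
  [IsManifold (modelWithCornersSelf ℂ (Cm n)) ω X]

/-- smoothness in one chart implies smoothness in all charts -/
theorem contDiffAt_of_chart {u : X → ℝ} {e e' : Chart n X} {x : X} (h : At e x) (h' : At e' x)
    {m : WithTop ℕ∞} (hm : m ≤ ω) (hu : ContDiffAt ℝ m (fun z => u (e.symm z)) (e x)) :
    ContDiffAt ℝ m (fun z => u (e'.symm z)) (e' x) := by
  have h1 : ContDiffAt ℝ m (fun z => e (e'.symm z)) (e' x) :=
    ((transition h' h).restrict_scalars ℝ).of_le hm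
  have h2 : (fun z => u (e'.symm z)) =ᶠ[𝓝 (e' x)] fun z => u (e.symm (e (e'.symm z))) := by
    filter_upwards [h'.nhds_at h] with z hz
    rw [hz.2.2.left_inv]
  refine ContDiffAt.congr_of_eventuallyEq ?_ h2
  refine ContDiffAt.comp (e' x) (g := fun z => u (e.symm z)) (f := fun z => e (e'.symm z)) ?_ h1
  simp only [h'.left_inv]
  exact hu

theorem smoothFn_of_solution {α : ℝ} (hReg : RegStatement (Cm n) α)
    {χ : Chart n X → Cm n → Matrix (Fin n) (Fin n) ℂ} (hχ : IsHermitian χ) {F u : X → ℝ}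
    (hF : SmoothFn (n := n) F) (hu : C2Fn (n := n) u)
    (hH : ∀ x : X, ∃ e : Chart n X, At e x ∧ ∃ r > 0, ∃ C : ℝ, ∀ y ∈ ball (e x) r, ∀ z ∈ ball (e x) r,
      ‖fderiv ℝ (fderiv ℝ fun z => u (e.symm z)) y - fderiv ℝ (fderiv ℝ fun z => u (e.symm z)) z‖
        ≤ C * ‖y - z‖ ^ α)
    (hp : ∀ e x, At e x → (addH χ u e (e x)).PosDef)
    (he : ∀ e x, At e x →
      Real.log (addH χ u e (e x)).det.re - Real.log (χ e (e x)).det.re = u x + F x) :
    SmoothFn (n := n) u := by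
  intro e' x hx'
  obtain ⟨e, hx, r, hr, C, hC⟩ := hH x
  refine contDiffAt_of_chart hx hx' (by exact_mod_cast le_top) ?_
  have hU : IsOpen (ball (e x) r ∩ e.target) := isOpen_ball.inter e.open_target
  have hat : ∀ z ∈ ball (e x) r ∩ e.target, At e (e.symm z) ∧ e (e.symm z) = z := fun z hz =>
    ⟨At.of_target hx.1 hz.2, e.right_inv hz.2⟩
  refine contDiffAt_of_equation hReg hU (χ := χ e) (f := fun z => F (e.symm z))
    (fun z hz i j => ?_) (fun z hz => ?_) (fun z hz => ?_) (fun z hz => ?_) (fun z hz => ?_)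
    (fun z hz => ?_) (fun z hz => ?_) (e x) ⟨mem_ball_self hr, hx.mem_target⟩
  · have := hχ.smooth e _ (hat z hz).1 i j
    rwa [(hat z hz).2] at this
  · have := hχ.posDef e _ (hat z hz).1
    rwa [(hat z hz).2] at this
  · have := hF e _ (hat z hz).1
    rwa [(hat z hz).2] at this
  · have := hu e _ (hat z hz).1
    rwa [(hat z hz).2] at this
  · obtain ⟨δ, hδ, hsub⟩ := Metric.isOpen_iff.1 (isOpen_ball (x := e x) (ε := r)) z hz.1
    exact ⟨δ, hδ, C, fun y hy z' hz' => hC y (hsub hy) z' (hsub hz')⟩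
  · have := hp e _ (hat z hz).1
    rw [(hat z hz).2] at this
    exact this
  · have := he e _ (hat z hz).1
    rw [(hat z hz).2] at this
    exact this

end

end Vale.Agent.P272.K.N
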