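import Vale.Agent.P272.K.Stmt
import Mathlib.Analysis.Calculus.FDeriv.Symmetric
import Mathlib.Analysis.Calculus.LocalExtr.Basic
import Mathlib.Analysis.Matrix.Order
import Mathlib.Analysis.Matrix.PosDef

/-! The complex Hessian as a linear function of the real Hessian (block N of P272/K). -/

open scoped Manifold ContDiff ComplexOrder
open Complex Filter Topology

noncomputable section

namespace Vale.Agent.P272.K.N

open Vale.Agent.P272.K

variable {n : ℕ}

/-- Real Hessians on `ℂⁿ`. -/
abbrev Bil (n : ℕ) : Type := Cm n →L[ℝ] Cm n →L[ℝ] ℝ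

/-- The complex Hessian (Levi matrix) as a function of the real Hessian `B`. -/
def lev (B : Bil n) : Matrix (Fin n) (Fin n) ℂ :=
  Matrix.of fun j k =>
    (((B (Pi.single j 1) (Pi.single k 1) + B (Pi.single j I) (Pi.single k I) : ℝ) : ℂ) +
      I * ((B (Pi.single j 1) (Pi.single k I) - B (Pi.single j I) (Pi.single k 1) : ℝ) : ℂ)) / 4

theorem lev_apply (B : Bil n) (j k : Fin n) : lev B j k =
    (((B (Pi.single j 1) (Pi.single k 1) + B (Pi.single j I) (Pi.single k I) : ℝ) : ℂ) +
      I * ((B (Pi.single j 1) (Pi.single k I) - B (Pi.single j I) (Pi.single k 1) : ℝ) : ℂ)) / 4 :=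
  rfl

theorem fderiv_ofReal_comp {E : Type*} [NormedAddCommGroup E] [NormedSpace ℝ E] (f : E → ℝ) (y : E) :
    fderiv ℝ (fun z => (f z : ℂ)) y = ofRealCLM.comp (fderiv ℝ f y) := by
  by_cases h : DifferentiableAt ℝ f y
  · exact (ofRealCLM.hasFDerivAt.comp y h.hasFDerivAt).fderiv
  · rw [fderiv_zero_of_not_differentiableAt h, fderiv_zero_of_not_differentiableAt]
    · ext; simp
    · intro h'
      exact h (by simpa [Function.comp_def] using (reCLM.differentiableAt.comp y h'))

theorem dzb_ofReal (f : Cm n → ℝ) (k : Fin n) (y : Cm n) :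
    dzb k (fun z => (f z : ℂ)) y =
      ((fderiv ℝ f y (Pi.single k 1) : ℝ) + I * (fderiv ℝ f y (Pi.single k I) : ℝ)) / 2 := by
  simp [dzb, fderiv_ofReal_comp]

theorem dz_ofReal (f : Cm n → ℝ) (k : Fin n) (y : Cm n) :
    dz k (fun z => (f z : ℂ)) y =
      ((fderiv ℝ f y (Pi.single k 1) : ℝ) - I * (fderiv ℝ f y (Pi.single k I) : ℝ)) / 2 := by
  simp [dz, fderiv_ofReal_comp]

theorem cHess_eq_lev {f : Cm n → ℝ} {z : Cm n} (h : DifferentiableAt ℝ (fderiv ℝ f) z) :
    cHess f z = lev (fderiv ℝ (fderiv ℝ f) z) := by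
  ext j k
  have key : ∀ w : Cm n, HasFDerivAt (fun y => ((fderiv ℝ f y w : ℝ) : ℂ))
      (ofRealCLM.comp ((ContinuousLinearMap.apply ℝ ℝ w).comp (fderiv ℝ (fderiv ℝ f) z))) z := by
    intro w
    exact ofRealCLM.hasFDerivAt.comp z ((ContinuousLinearMap.apply ℝ ℝ w).hasFDerivAt.comp z
      h.hasFDerivAt)
  have h1 := key (Pi.single k 1)
  have h2 := key (Pi.single k I)
  have h3 : HasFDerivAt (fun y => dzb k (fun z => (f z : ℂ)) y)
      ((2⁻¹ : ℂ) • (ofRealCLM.comp ((ContinuousLinearMap.apply ℝ ℝ (Pi.single k 1)).comp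
        (fderiv ℝ (fderiv ℝ f) z)) + I • (ofRealCLM.comp
        ((ContinuousLinearMap.apply ℝ ℝ (Pi.single k I)).comp (fderiv ℝ (fderiv ℝ f) z))))) z := by
    have := (h1.add (h2.const_mul I)).const_mul (2⁻¹ : ℂ)
    refine this.congr_of_eventuallyEq (Eventually.of_forall fun y => ?_)
    simp only [dzb_ofReal, Pi.add_apply]
    ring
  simp only [cHess, Matrix.of_apply, dz]
  rw [h3.fderiv, lev_apply]
  simp
  ring_nf
  simp [I_sq]
  ring

/-- `lev B` is Hermitian for symmetric `B`. -/
theorem lev_isHermitian {B : Bil n} (hB : ∀ v w, B v w = B w v) : (lev B).IsHermitian := by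
  refine Matrix.IsHermitian.ext fun i j => ?_
  have e4 : (4 : ℂ) = ((4:ℝ):ℂ) := by norm_num
  simp only [lev_apply, star_def, map_div₀, map_add, map_mul, conj_ofReal, conj_I, e4]
  rw [hB (Pi.single j 1) (Pi.single i 1), hB (Pi.single j I) (Pi.single i I),
    hB (Pi.single j 1) (Pi.single i I), hB (Pi.single j I) (Pi.single i 1)]
  push_cast
  ring

theorem lev_add (B C : Bil n) : lev (B + C) = lev B + lev C := by
  ext j k
  simp only [lev_apply, Matrix.add_apply, _root_.add_apply]
  push_cast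
  ring

theorem lev_smul (c : ℝ) (B : Bil n) : lev (c • B) = (c : ℂ) • lev B := by
  ext j k
  simp only [lev_apply, Matrix.smul_apply, _root_.smul_apply, smul_eq_mul]
  push_cast
  ring

theorem lev_neg (B : Bil n) : lev (-B) = - lev B := by
  ext j k
  simp only [lev_apply, Matrix.neg_apply, _root_.neg_apply]
  push_cast
  ring

theorem lev_sub (B C : Bil n) : lev (B - C) = lev B - lev C := by
  rw [sub_eq_add_neg B C, lev_add, lev_neg, ← sub_eq_add_neg]

theorem decomp (ξ : Cm n) :
    ξ = ∑ j, ((ξ j).re • (Pi.single j (1:ℂ) : Cm n) + (ξ j).im • (Pi.single j I : Cm n)) := by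
  funext i
  simp only [Finset.sum_apply, Pi.add_apply, Pi.smul_apply, Pi.single_apply]
  rw [Finset.sum_eq_single i]
  · simp only [if_true]
    apply Complex.ext <;> simp
  · intro b _ hb
    simp [Ne.symm hb]
  · simp

theorem decompI (ξ : Cm n) :
    I • ξ = ∑ j, ((-(ξ j).im) • (Pi.single j (1:ℂ) : Cm n) + (ξ j).re • (Pi.single j I : Cm n)) := by
  conv_lhs => rw [decomp (I • ξ)]
  simp

/-- The quadratic form of `lev B`. -/
theorem lev_quadratic {B : Bil n} (hB : ∀ v w, B v w = B w v) (x : Cm n) :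
    star x ⬝ᵥ (lev B).mulVec x = ((B (star x) (star x) + B (I • star x) (I • star x)) / 4 : ℝ) := by
  set ξ := star x with hξ
  have hx : ∀ j, x j = (ξ j).re - I * (ξ j).im := by
    intro j
    apply Complex.ext <;> simp [hξ]
  have h1 : B ξ ξ = ∑ j, ∑ k, ((ξ j).re * (ξ k).re * B (Pi.single j 1) (Pi.single k 1) +
      (ξ j).re * (ξ k).im * B (Pi.single j 1) (Pi.single k I) +
      (ξ j).im * (ξ k).re * B (Pi.single j I) (Pi.single k 1) +
      (ξ j).im * (ξ k).im * B (Pi.single j I) (Pi.single k I)) := by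
    conv_lhs => rw [decomp ξ]
    simp only [map_sum, _root_.sum_apply, map_add, map_smul,
      _root_.add_apply, _root_.smul_apply, smul_eq_mul]
    rw [Finset.sum_comm]
    refine Finset.sum_congr rfl fun j _ => ?_
    simp only [Finset.mul_sum, ← Finset.sum_add_distrib]
    refine Finset.sum_congr rfl fun k _ => ?_
    ring
  have h2 : B (I • ξ) (I • ξ) = ∑ j, ∑ k, ((ξ j).im * (ξ k).im * B (Pi.single j 1) (Pi.single k 1) -
      (ξ j).im * (ξ k).re * B (Pi.single j 1) (Pi.single k I) -
      (ξ j).re * (ξ k).im * B (Pi.single j I) (Pi.single k 1) +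
      (ξ j).re * (ξ k).re * B (Pi.single j I) (Pi.single k I)) := by
    conv_lhs => rw [decompI ξ]
    simp only [map_sum, _root_.sum_apply, map_add, map_smul,
      _root_.add_apply, _root_.smul_apply, smul_eq_mul]
    rw [Finset.sum_comm]
    refine Finset.sum_congr rfl fun j _ => ?_
    simp only [Finset.mul_sum, ← Finset.sum_add_distrib]
    refine Finset.sum_congr rfl fun k _ => ?_
    ring
  have h3 : star x ⬝ᵥ (lev B).mulVec x = ∑ j, ∑ k, ξ j * lev B j k * x k := by
    simp only [dotProduct, Matrix.mulVec, Finset.mul_sum]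
    refine Finset.sum_congr rfl fun j _ => Finset.sum_congr rfl fun k _ => ?_
    simp only [hξ, Pi.star_apply]
    ring
  have hre : (star x ⬝ᵥ (lev B).mulVec x).re = (B ξ ξ + B (I • ξ) (I • ξ)) / 4 := by
    rw [h3, h1, h2, ← Finset.sum_add_distrib, Finset.sum_div, Complex.re_sum]
    refine Finset.sum_congr rfl fun j _ => ?_
    rw [← Finset.sum_add_distrib, Finset.sum_div, Complex.re_sum]
    refine Finset.sum_congr rfl fun k _ => ?_
    rw [hx k, lev_apply]
    have e4 : (4 : ℂ) = ((4:ℝ):ℂ) := by norm_num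
    rw [e4]
    simp only [mul_re, mul_im, sub_re, sub_im, add_re, add_im, ofReal_re, ofReal_im, I_re, I_im,
      div_ofReal_re, div_ofReal_im]
    ring
  have him : (star x ⬝ᵥ (lev B).mulVec x).im = 0 := by
    have := (lev_isHermitian hB).im_star_dotProduct_mulVec_self x
    simpa using this
  apply Complex.ext
  · rw [hre]; simp
  · rw [him]; simp

theorem lev_posSemidef {B : Bil n} (hB : ∀ v w, B v w = B w v) (hpos : ∀ v, 0 ≤ B v v) :
    (lev B).PosSemidef := by
  refine Matrix.PosSemidef.of_dotProduct_mulVec_nonneg (lev_isHermitian hB) fun x => ?_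
  rw [lev_quadratic hB]
  have := add_nonneg (hpos (star x)) (hpos (I • star x))
  exact_mod_cast (by positivity : (0:ℝ) ≤ (B (star x) (star x) + B (I • star x) (I • star x)) / 4)

end Vale.Agent.P272.K.N
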