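import Vale.Agent.P272.K.LIN.Jet
import Mathlib.Analysis.Calculus.MeanValue
import Mathlib.Analysis.Calculus.ContDiff.RCLike
import Mathlib.Analysis.Calculus.FDeriv.Symmetric
import Mathlib.Analysis.Calculus.FDeriv.Bilinear
import Mathlib.Analysis.SpecialFunctions.Pow.Continuity

/-!
# Interpolation: a function which is small in the sup norm and has a bounded `β`-Hölder norm of
its second derivative has a small two-jet in the `α`-Hölder norm, `α < β`, on a smaller ball.
-/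

set_option maxSynthPendingDepth 3

open Metric Set Filter Topology
open scoped ContDiff

noncomputable section

namespace Vale.Agent.P272.K.N

open Vale.Agent.P272.K.LIN

variable {E : Type*} [NormedAddCommGroup E] [NormedSpace ℝ E]

/-- Second order Taylor estimate with Hölder remainder. -/
theorem taylor2 {f : E → ℝ} {x : E} {h M β : ℝ} (hh : 0 < h) (hM : 0 ≤ M) (hβ : 0 ≤ β)
    (hf : ∀ y ∈ closedBall x h, ContDiffAt ℝ 2 f y)
    (hH : ∀ y ∈ closedBall x h,
      ‖fderiv ℝ (fderiv ℝ f) y - fderiv ℝ (fderiv ℝ f) x‖ ≤ M * ‖y - x‖ ^ β)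
    {w : E} (hw : ‖w‖ ≤ h) :
    |f (x + w) - f x - fderiv ℝ f x w - (1 / 2) * fderiv ℝ (fderiv ℝ f) x w w| ≤
      M * h ^ β * h ^ 2 := by
  set B := fderiv ℝ (fderiv ℝ f) x with hB
  have hx : x ∈ closedBall x h := mem_closedBall_self hh.le
  have hsymm : ∀ u v, B u v = B v u := by
    intro u v
    have := (hf x hx).isSymmSndFDerivAt (by simp)
    exact this.eq u v
  have hd1 : ∀ y ∈ closedBall x h, DifferentiableAt ℝ f y := fun y hy =>
    (hf y hy).differentiableAt (by simp)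
  have hd2 : ∀ y ∈ closedBall x h, DifferentiableAt ℝ (fderiv ℝ f) y := fun y hy =>
    ((hf y hy).fderiv_right (m := 1) (by norm_num)).differentiableAt (by simp)
  have hle : ∀ y ∈ closedBall x h,
      ‖fderiv ℝ (fderiv ℝ f) y - B‖ ≤ M * h ^ β := by
    intro y hy
    refine (hH y hy).trans ?_
    have : ‖y - x‖ ≤ h := by simpa [dist_eq_norm] using hy
    gcongr
  -- first derivative
  have h1 : ∀ y ∈ closedBall x h, ‖fderiv ℝ f y - fderiv ℝ f x - B (y - x)‖ ≤
      M * h ^ β * ‖y - x‖ := by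
    intro y hy
    have key := (convex_closedBall x h).norm_image_sub_le_of_norm_hasFDerivWithin_le
      (𝕜 := ℝ) (f := fun y => fderiv ℝ f y - B (y - x))
      (f' := fun y => fderiv ℝ (fderiv ℝ f) y - B) (C := M * h ^ β)
      (fun z hz => by
        have h2 : HasFDerivAt (fun y => B (y - x)) B z := by
          have := B.hasFDerivAt (x := z - x)
          exact this.comp z ((hasFDerivAt_id z).sub_const x)
        exact ((hd2 z hz).hasFDerivAt.sub h2).hasFDerivWithinAt) hle hx hy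
    simpa [sub_self, sub_right_comm] using key
  have hz : x + w ∈ closedBall x h := by simpa [dist_eq_norm] using hw
  -- the function itself
  have h3 := (convex_closedBall x h).norm_image_sub_le_of_norm_hasFDerivWithin_le
      (𝕜 := ℝ) (f := fun y => f y - fderiv ℝ f x (y - x) - (1 / 2) * B (y - x) (y - x))
      (f' := fun y => fderiv ℝ f y - fderiv ℝ f x - B (y - x)) (C := M * h ^ β * h)
      (fun z hz => by
        have h2 : HasFDerivAt (fun y => fderiv ℝ f x (y - x)) (fderiv ℝ f x) z := by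
          have := (fderiv ℝ f x).hasFDerivAt (x := z - x)
          exact this.comp z ((hasFDerivAt_id z).sub_const x)
        have h4 : HasFDerivAt (fun y => (1 / 2 : ℝ) * B (y - x) (y - x)) (B (z - x)) z := by
          have h5 : HasFDerivAt (fun y : E => y - x) (ContinuousLinearMap.id ℝ E) z :=
            (hasFDerivAt_id z).sub_const x
          have h6 := (B.hasFDerivAt_of_bilinear h5 h5).const_mul (1 / 2 : ℝ)
          refine h6.congr_fderiv ?_
          ext v
          simp [hsymm v z, hsymm v x]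
          ring
        exact (((hd1 z hz).hasFDerivAt.sub h2).sub h4).hasFDerivWithinAt)
      (fun z hz => (h1 z hz).trans (by
        have : ‖z - x‖ ≤ h := by simpa [dist_eq_norm] using hz
        gcongr)) hx hz
  simp only [sub_self, map_zero, add_sub_cancel_left, mul_zero,
    sub_zero, Real.norm_eq_abs] at h3
  have h4 : f (x + w) - f x - fderiv ℝ f x w - (1 / 2) * B w w =
      f (x + w) - fderiv ℝ f x w - 1 / 2 * B w w - f x := by ring
  rw [h4]
  refine h3.trans ?_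
  have : M * h ^ β * h * ‖w‖ ≤ M * h ^ β * h * h := by gcongr
  linarith [this, show M * h ^ β * h * h = M * h ^ β * h ^ 2 by ring]

/-- Bounds at a point: `Q = 4 ε / h ^ 2 + 2 M h ^ β`. -/
theorem bound_at {f : E → ℝ} {x : E} {h M β ε : ℝ} (hh : 0 < h) (hM : 0 ≤ M) (hβ : 0 ≤ β)
    (hf : ∀ y ∈ closedBall x h, ContDiffAt ℝ 2 f y)
    (hH : ∀ y ∈ closedBall x h,
      ‖fderiv ℝ (fderiv ℝ f) y - fderiv ℝ (fderiv ℝ f) x‖ ≤ M * ‖y - x‖ ^ β)
    (hε : ∀ y ∈ closedBall x h, |f y| ≤ ε) :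
    ‖fderiv ℝ f x‖ ≤ h * (4 * ε / h ^ 2 + 2 * M * h ^ β) ∧
      ‖fderiv ℝ (fderiv ℝ f) x‖ ≤ 2 * (4 * ε / h ^ 2 + 2 * M * h ^ β) := by
  set B := fderiv ℝ (fderiv ℝ f) x with hB
  set Q := 4 * ε / h ^ 2 + 2 * M * h ^ β with hQ
  have hx : x ∈ closedBall x h := mem_closedBall_self hh.le
  have hε0 : 0 ≤ ε := (abs_nonneg _).trans (hε x hx)
  have hpow : 0 ≤ h ^ β := Real.rpow_nonneg hh.le _
  have hQ0 : 0 ≤ Q := by positivity
  have hQh : Q * h ^ 2 = 4 * ε + 2 * (M * h ^ β * h ^ 2) := by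
    rw [hQ]; field_simp
  have hsymm : ∀ u v, B u v = B v u := by
    intro u v
    have := (hf x hx).isSymmSndFDerivAt (by simp)
    exact this.eq u v
  -- quadratic form on vectors of norm `≤ h`
  have hq : ∀ w : E, ‖w‖ ≤ h → |B w w| ≤ Q * h ^ 2 ∧ |fderiv ℝ f x w| ≤ Q * h ^ 2 := by
    intro w hw
    have h1 := taylor2 hh hM hβ hf hH hw
    have h2 := taylor2 hh hM hβ hf hH (w := -w) (by rwa [norm_neg])
    have h3 := hε (x + w) (by simpa [dist_eq_norm] using hw)
    have h4 := hε (x + -w) (by simpa [dist_eq_norm] using hw)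
    have h5 := hε x hx
    simp only [map_neg, neg_apply, neg_neg, ← hB] at h1 h2
    rw [abs_le] at h1 h2 h3 h4 h5
    rw [hQh]
    constructor <;> rw [abs_le] <;> constructor <;> linarith [h1.1, h1.2, h2.1, h2.2, h3.1, h3.2,
      h4.1, h4.2, h5.1, h5.2]
  have hdiag : ∀ v : E, |B v v| ≤ Q * ‖v‖ ^ 2 := by
    intro v
    rcases eq_or_ne v 0 with rfl | hv
    · simp
    have hv' : 0 < ‖v‖ := norm_pos_iff.2 hv
    have h1 := (hq ((h / ‖v‖) • v) (by
      rw [norm_smul, Real.norm_eq_abs, abs_of_pos (by positivity)]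
      field_simp
      exact le_rfl)).1
    simp only [map_smul, smul_apply, smul_eq_mul] at h1
    rw [← mul_assoc, abs_mul, abs_of_nonneg (by positivity)] at h1
    have h2 : h / ‖v‖ * (h / ‖v‖) * |B v v| = |B v v| / ‖v‖ ^ 2 * h ^ 2 := by
      field_simp
    rw [h2] at h1
    have h3 := le_of_mul_le_mul_right h1 (by positivity)
    rwa [div_le_iff₀ (by positivity)] at h3
  constructor
  · refine ContinuousLinearMap.opNorm_le_bound _ (by positivity) fun v => ?_
    rcases eq_or_ne v 0 with rfl | hv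
    · simp
    have hv' : 0 < ‖v‖ := norm_pos_iff.2 hv
    have h1 := (hq ((h / ‖v‖) • v) (by
      rw [norm_smul, Real.norm_eq_abs, abs_of_pos (by positivity)]
      field_simp
      exact le_rfl)).2
    simp only [map_smul, smul_eq_mul] at h1
    rw [abs_mul, abs_of_nonneg (by positivity)] at h1
    have h2 : h / ‖v‖ * |fderiv ℝ f x v| = |fderiv ℝ f x v| / ‖v‖ * h := by ring
    have h3 : Q * h ^ 2 = (h * Q) * h := by ring
    rw [h2, h3] at h1
    have h4 := le_of_mul_le_mul_right h1 hh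
    rw [div_le_iff₀ hv'] at h4
    simpa [Real.norm_eq_abs] using h4
  · refine ContinuousLinearMap.opNorm_le_bound₂ _ (by positivity) fun u v => ?_
    rcases eq_or_ne u 0 with rfl | hu
    · simp
    rcases eq_or_ne v 0 with rfl | hv
    · simp
    have hu' : 0 < ‖u‖ := norm_pos_iff.2 hu
    have hv' : 0 < ‖v‖ := norm_pos_iff.2 hv
    -- unit vectors
    have hunit : ∀ a b : E, ‖a‖ = 1 → ‖b‖ = 1 → |B a b| ≤ 2 * Q := by
      intro a b ha hb
      have h1 : B a b = (B (a + b) (a + b) - B (a - b) (a - b)) / 4 := by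
        simp only [map_add, map_sub, add_apply, sub_apply]
        rw [hsymm b a]
        ring
      have h2 := hdiag (a + b)
      have h3 := hdiag (a - b)
      have h4 : ‖a + b‖ ≤ 2 := (norm_add_le _ _).trans (by rw [ha, hb]; norm_num)
      have h5 : ‖a - b‖ ≤ 2 := (norm_sub_le _ _).trans (by rw [ha, hb]; norm_num)
      have h6 : Q * ‖a + b‖ ^ 2 ≤ Q * 2 ^ 2 := by gcongr
      have h7 : Q * ‖a - b‖ ^ 2 ≤ Q * 2 ^ 2 := by gcongr
      rw [h1, abs_div, abs_of_pos (by norm_num : (0:ℝ) < 4), div_le_iff₀ (by norm_num)]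
      refine (abs_sub _ _).trans ?_
      linarith
    have h1 := hunit (‖u‖⁻¹ • u) (‖v‖⁻¹ • v) (by rw [norm_smul, norm_inv, norm_norm]; field_simp)
      (by rw [norm_smul, norm_inv, norm_norm]; field_simp)
    simp only [map_smul, smul_apply, smul_eq_mul] at h1
    rw [abs_mul, abs_mul, abs_of_pos (inv_pos.2 hu'), abs_of_pos (inv_pos.2 hv')] at h1
    have h2 : ‖u‖⁻¹ * (‖v‖⁻¹ * |B u v|) = |B u v| / (‖u‖ * ‖v‖) := by
      field_simp
    rw [Real.norm_eq_abs]
    have h3 : |B u v| / (‖u‖ * ‖v‖) ≤ 2 * Q := by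
      refine le_trans (le_of_eq ?_) h1
      field_simp
    rw [div_le_iff₀ (by positivity)] at h3
    linarith

/-- **Interpolation.** Smallness in the sup norm implies smallness of the two-jet in the
`α`-Hölder norm on a smaller ball, for functions with a bounded `β`-Hölder norm of the second
derivative. -/
theorem interp (c : E) {r R : ℝ} (hr : 0 < r) (hrR : r < R) {α β : ℝ} (hα : 0 < α)
    (hα1 : α ≤ 1) (hαβ : α < β) (M : ℝ) {ε : ℝ} (hε : 0 < ε) :
    ∃ δ > 0, ∀ f : E → ℝ, (∀ y ∈ closedBall c R, ContDiffAt ℝ 2 f y) →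
      (∀ y ∈ closedBall c R, ∀ y' ∈ closedBall c R,
        ‖fderiv ℝ (fderiv ℝ f) y - fderiv ℝ (fderiv ℝ f) y'‖ ≤ M * ‖y - y'‖ ^ β) →
      (∀ y ∈ closedBall c R, |f y| ≤ δ) →
      (∀ y ∈ closedBall c r, ‖jet f y‖ ≤ ε) ∧
      ∀ y ∈ closedBall c r, ∀ y' ∈ closedBall c r, ‖jet f y - jet f y'‖ ≤ ε * ‖y - y'‖ ^ α := by
  have hβ : 0 < β := hα.trans hαβ
  set M' : ℝ := max M 1 with hM'
  have hM'0 : 0 < M' := lt_max_of_lt_right one_pos
  -- choose `t`: for `|y - y'| ≤ t`, the Hölder bound suffices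
  obtain ⟨t, ht0, ht⟩ : ∃ t > 0, M' * t ^ (β - α) ≤ ε := by
    have h1 : Tendsto (fun t : ℝ => M' * t ^ (β - α)) (𝓝[>] 0) (𝓝 (M' * 0)) := by
      refine Tendsto.const_mul _ ?_
      have h2 := (Real.continuousAt_rpow_const 0 (β - α) (Or.inr (by linarith))).tendsto
      rw [Real.zero_rpow (by linarith)] at h2
      exact h2.mono_left nhdsWithin_le_nhds
    rw [mul_zero] at h1
    obtain ⟨t, h3, h4⟩ := ((h1.eventually (gt_mem_nhds hε)).and self_mem_nhdsWithin).exists
    exact ⟨t, h4, h3.le⟩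
  -- the bound `Q` which we want for first and second derivatives
  obtain ⟨Q, hQ0, hQ1, hQ2, hQ3⟩ : ∃ Q > 0, 2 * Q ≤ ε ∧ 4 * Q ≤ ε * t ^ α ∧
      2 * Q * (2 * r) ^ (1 - α) ≤ ε := by
    have hp : 0 < (2 * r) ^ (1 - α) := Real.rpow_pos_of_pos (by positivity) _
    have hp2 : 0 < t ^ α := Real.rpow_pos_of_pos ht0 _
    refine ⟨min (ε / 2) (min (ε * t ^ α / 4) (ε / (2 * (2 * r) ^ (1 - α)))), by positivity,
      ?_, ?_, ?_⟩
    · have := min_le_left (ε / 2) (min (ε * t ^ α / 4) (ε / (2 * (2 * r) ^ (1 - α))))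
      linarith
    · have := (min_le_right (ε / 2) (min (ε * t ^ α / 4) (ε / (2 * (2 * r) ^ (1 - α))))).trans
        (min_le_left _ _)
      linarith
    · have := (min_le_right (ε / 2) (min (ε * t ^ α / 4) (ε / (2 * (2 * r) ^ (1 - α))))).trans
        (min_le_right _ _)
      rw [le_div_iff₀ (by positivity)] at this
      linarith
  -- the step `h`
  obtain ⟨h, hh0, hh1, hhR, hh⟩ : ∃ h > 0, h ≤ 1 ∧ h ≤ R - r ∧ 2 * M' * h ^ β ≤ Q / 2 := by
    have h1 : Tendsto (fun t : ℝ => 2 * M' * t ^ β) (𝓝[>] 0) (𝓝 (2 * M' * 0)) := by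
      refine Tendsto.const_mul _ ?_
      have h2 := (Real.continuousAt_rpow_const 0 β (Or.inr hβ.le)).tendsto
      rw [Real.zero_rpow hβ.ne'] at h2
      exact h2.mono_left nhdsWithin_le_nhds
    rw [mul_zero] at h1
    have h5 : ∀ᶠ t : ℝ in 𝓝[>] 0, t < 1 := nhdsWithin_le_nhds (gt_mem_nhds one_pos)
    have h6 : ∀ᶠ t : ℝ in 𝓝[>] 0, t < R - r := nhdsWithin_le_nhds (gt_mem_nhds (by linarith))
    obtain ⟨t, ⟨⟨h3, h4⟩, h7⟩, h8⟩ := (((h1.eventually (gt_mem_nhds (half_pos hQ0))).and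
      self_mem_nhdsWithin).and h5 |>.and h6).exists
    exact ⟨t, h4, h7.le, h8.le, h3.le⟩
  refine ⟨min (Q * h ^ 2 / 8) (Q / 2), by positivity, fun f hf hH hs => ?_⟩
  set δ := min (Q * h ^ 2 / 8) (Q / 2) with hδ
  have hδ0 : 0 < δ := by positivity
  have hδ1 : 4 * δ / h ^ 2 ≤ Q / 2 := by
    rw [div_le_iff₀ (by positivity)]
    have := min_le_left (Q * h ^ 2 / 8) (Q / 2)
    linarith
  have hδ2 : δ ≤ Q / 2 := min_le_right _ _
  have hH' : ∀ y ∈ closedBall c R, ∀ y' ∈ closedBall c R,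
        ‖fderiv ℝ (fderiv ℝ f) y - fderiv ℝ (fderiv ℝ f) y'‖ ≤ M' * ‖y - y'‖ ^ β :=
    fun y hy y' hy' => (hH y hy y' hy').trans (by
      have : 0 ≤ ‖y - y'‖ ^ β := Real.rpow_nonneg (norm_nonneg _) _
      gcongr
      exact le_max_left _ _)
  have hsub : ∀ x ∈ closedBall c r, closedBall x h ⊆ closedBall c R := by
    intro x hx
    refine closedBall_subset_closedBall' ?_
    rw [mem_closedBall] at hx
    linarith
  have hbd : ∀ x ∈ closedBall c r, |f x| ≤ Q / 2 ∧ ‖fderiv ℝ f x‖ ≤ Q ∧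
      ‖fderiv ℝ (fderiv ℝ f) x‖ ≤ 2 * Q := by
    intro x hx
    have hxR : x ∈ closedBall c R := hsub x hx (mem_closedBall_self hh0.le)
    obtain ⟨h1, h2⟩ := bound_at hh0 hM'0.le hβ.le (fun y hy => hf y (hsub x hx hy))
      (fun y hy => hH' y (hsub x hx hy) x hxR) (fun y hy => hs y (hsub x hx hy))
    have h3 : 4 * δ / h ^ 2 + 2 * M' * h ^ β ≤ Q := by linarith
    have h3' : 0 ≤ 4 * δ / h ^ 2 + 2 * M' * h ^ β := by positivity
    refine ⟨(hs x hxR).trans hδ2, h1.trans ?_, h2.trans (by linarith)⟩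
    calc h * (4 * δ / h ^ 2 + 2 * M' * h ^ β) ≤ 1 * Q := by gcongr
      _ = Q := one_mul Q
  have hd1 : ∀ y ∈ closedBall c R, DifferentiableAt ℝ f y := fun y hy =>
    (hf y hy).differentiableAt (by simp)
  have hd2 : ∀ y ∈ closedBall c R, DifferentiableAt ℝ (fderiv ℝ f) y := fun y hy =>
    ((hf y hy).fderiv_right (m := 1) (by norm_num)).differentiableAt (by simp)
  have hrR' : closedBall c r ⊆ closedBall c R := closedBall_subset_closedBall hrR.le
  -- Lipschitz to Hölder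
  have hlip : ∀ y ∈ closedBall c r, ∀ y' ∈ closedBall c r, ∀ K, 0 ≤ K → K ≤ 2 * Q →
      K * ‖y - y'‖ ≤ ε * ‖y - y'‖ ^ α := by
    intro y hy y' hy' K hK0 hK
    rcases (norm_nonneg (y - y')).eq_or_lt with h0 | h0
    · rw [← h0, mul_zero, Real.zero_rpow hα.ne', mul_zero]
    have h1 : ‖y - y'‖ ≤ 2 * r := by
      rw [mem_closedBall, dist_eq_norm] at hy hy'
      calc ‖y - y'‖ = ‖(y - c) - (y' - c)‖ := by congr 1; abel
        _ ≤ ‖y - c‖ + ‖y' - c‖ := norm_sub_le _ _
        _ ≤ 2 * r := by linarith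
    calc K * ‖y - y'‖ = K * (‖y - y'‖ ^ (1 - α) * ‖y - y'‖ ^ α) := by
          rw [← Real.rpow_add h0]; simp
      _ ≤ 2 * Q * ((2 * r) ^ (1 - α) * ‖y - y'‖ ^ α) := by
          gcongr
      _ = 2 * Q * (2 * r) ^ (1 - α) * ‖y - y'‖ ^ α := by ring
      _ ≤ ε * ‖y - y'‖ ^ α := by gcongr
  refine ⟨fun y hy => ?_, fun y hy y' hy' => ?_⟩
  · obtain ⟨h1, h2, h3⟩ := hbd y hy
    simp only [jet, Prod.norm_def, Real.norm_eq_abs]
    refine max_le (by linarith) (max_le (by linarith) (by linarith))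
  · obtain ⟨h1, h2, h3⟩ := hbd y hy
    obtain ⟨h1', h2', h3'⟩ := hbd y' hy'
    simp only [jet, Prod.norm_def, Prod.fst_sub, Prod.snd_sub]
    refine max_le ?_ (max_le ?_ ?_)
    · refine le_trans ?_ (hlip y hy y' hy' Q hQ0.le (by linarith))
      exact (convex_closedBall c r).norm_image_sub_le_of_norm_fderiv_le
        (𝕜 := ℝ) (fun z hz => hd1 z (hrR' hz)) (fun z hz => (hbd z hz).2.1) hy' hy
    · refine le_trans ?_ (hlip y hy y' hy' (2 * Q) (by linarith) le_rfl)
      exact (convex_closedBall c r).norm_image_sub_le_of_norm_fderiv_le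
        (𝕜 := ℝ) (fun z hz => hd2 z (hrR' hz)) (fun z hz => (hbd z hz).2.2) hy' hy
    · rcases le_total ‖y - y'‖ t with h4 | h4
      · rcases (norm_nonneg (y - y')).eq_or_lt with h0 | h0
        · have : y = y' := by rw [← sub_eq_zero, ← norm_eq_zero]; exact h0.symm
          subst this
          simp [Real.zero_rpow hα.ne']
        calc ‖fderiv ℝ (fderiv ℝ f) y - fderiv ℝ (fderiv ℝ f) y'‖ ≤ M' * ‖y - y'‖ ^ β :=
              hH' y (hrR' hy) y' (hrR' hy')
          _ = M' * (‖y - y'‖ ^ (β - α) * ‖y - y'‖ ^ α) := by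
              rw [← Real.rpow_add h0]; simp
          _ ≤ M' * (t ^ (β - α) * ‖y - y'‖ ^ α) := by
              gcongr
          _ = M' * t ^ (β - α) * ‖y - y'‖ ^ α := by ring
          _ ≤ ε * ‖y - y'‖ ^ α := by gcongr
      · calc ‖fderiv ℝ (fderiv ℝ f) y - fderiv ℝ (fderiv ℝ f) y'‖
            ≤ ‖fderiv ℝ (fderiv ℝ f) y‖ + ‖fderiv ℝ (fderiv ℝ f) y'‖ := norm_sub_le _ _
          _ ≤ 4 * Q := by linarith
          _ ≤ ε * t ^ α := hQ2
          _ ≤ ε * ‖y - y'‖ ^ α := by gcongr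

end Vale.Agent.P272.K.N
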