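import Vale.Agent.P272.K.LIN.Cov
import Vale.Agent.P272.K.N.Interp

/-!
# Hölder bounds on `X` for `x ↦ η i x • g (e i x)` from Hölder bounds of `g` on a chart ball
-/

set_option maxSynthPendingDepth 3

open Metric Set Filter Topology
open scoped ContDiff NNReal

noncomputable section

namespace Vale.Agent.P272.K.N

open Vale.Agent.P272.K.LIN

variable {E : Type*} [NormedAddCommGroup E] [NormedSpace ℝ E] [FiniteDimensional ℝ E]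
  {X : Type*} [TopologicalSpace X] [T2Space X] [ChartedSpace E X] [RSm E X]
  {V : Type*} [NormedAddCommGroup V] [NormedSpace ℝ V]

/-- A function on the chart ball `closedBall (c i) (3 r i)`, bounded by `A` and with `α`-Hölder
constant `B`, gives after multiplication by the cutoff `η i` a function on `X` with `w`-Hölder
constant `C * (A + B)`. -/
theorem exists_cut_hol (𝒞 : Cov E X) {α : ℝ} (h0 : 0 < α) (h1 : α ≤ 1) (i : Fin 𝒞.N) :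
    ∃ C, 0 ≤ C ∧ ∀ (g : E → V) (A B : ℝ), 0 ≤ A → 0 ≤ B →
      (∀ y ∈ closedBall (𝒞.c i) (3 * 𝒞.r i), ‖g y‖ ≤ A) →
      (∀ y ∈ closedBall (𝒞.c i) (3 * 𝒞.r i), ∀ y' ∈ closedBall (𝒞.c i) (3 * 𝒞.r i),
        ‖g y - g y'‖ ≤ B * ‖y - y'‖ ^ α) →
      ∀ x x' : X, ‖𝒞.η i x • g (𝒞.e i x) - 𝒞.η i x' • g (𝒞.e i x')‖ ≤
        C * (A + B) * 𝒞.w α x x' := by
  set S : Set X := (𝒞.e i).symm '' closedBall (𝒞.c i) (3 * 𝒞.r i) with hS
  have hSc : IsCompact S :=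
    (isCompact_closedBall _ _).image_of_continuousOn ((𝒞.e i).continuousOn_symm.mono (𝒞.sub i))
  have hSs : S ⊆ (𝒞.e i).source := by
    rintro x ⟨y, hy, rfl⟩
    exact (𝒞.e i).map_target (𝒞.sub i hy)
  have hSb : ∀ x ∈ S, 𝒞.e i x ∈ closedBall (𝒞.c i) (3 * 𝒞.r i) := by
    rintro x ⟨y, hy, rfl⟩
    rwa [(𝒞.e i).right_inv (𝒞.sub i hy)]
  have hηS : ∀ x, x ∉ S → 𝒞.η i x = 0 := by
    intro x hx
    by_contra h
    obtain ⟨h2, h3⟩ := 𝒞.η_ne_zero h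
    exact hx ⟨𝒞.e i x, ball_subset_closedBall h3, (𝒞.e i).left_inv h2⟩
  obtain ⟨L, hL0, hL⟩ := 𝒞.chart_lip (𝒞.mem i) hSc hSs
  have hD : 0 ≤ 𝒞.D ^ (1 - α) := Real.rpow_nonneg 𝒞.D_nonneg _
  have hLα : 0 ≤ L ^ α := Real.rpow_nonneg hL0 _
  refine ⟨𝒞.D ^ (1 - α) + L ^ α, by positivity, fun g A B hA hB hgA hgB => ?_⟩
  -- the difference of cutoffs
  have hη : ∀ x x', |𝒞.η i x - 𝒞.η i x'| ≤ 𝒞.D ^ (1 - α) * 𝒞.w α x x' := by
    intro x x'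
    have h2 := 𝒞.term_le_d i x x'
    have h3 := norm_nonneg (𝒞.η i x • 𝒞.e i x - 𝒞.η i x' • 𝒞.e i x')
    exact le_trans (by linarith) (𝒞.lip_le_w h0 h1 x x')
  have hw0 : ∀ x x', 0 ≤ (𝒞.w α x x' : ℝ) := fun x x' => NNReal.coe_nonneg _
  -- one point in the support
  have hone : ∀ x x', x ∈ S → x' ∉ S → ‖𝒞.η i x • g (𝒞.e i x)‖ ≤
      (𝒞.D ^ (1 - α) + L ^ α) * (A + B) * 𝒞.w α x x' := by
    intro x x' hx hx'
    have h2 := hη x x'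
    rw [hηS x' hx', sub_zero] at h2
    rw [norm_smul, Real.norm_eq_abs]
    calc |𝒞.η i x| * ‖g (𝒞.e i x)‖ ≤ (𝒞.D ^ (1 - α) * 𝒞.w α x x') * A := by
          have := hgA _ (hSb x hx)
          have := hw0 x x'
          gcongr
      _ ≤ (𝒞.D ^ (1 - α) + L ^ α) * (A + B) * 𝒞.w α x x' := by
          have h4 : 0 ≤ 𝒞.D ^ (1 - α) * B * 𝒞.w α x x' :=
            mul_nonneg (mul_nonneg hD hB) (hw0 x x')
          have h5 : 0 ≤ L ^ α * (A + B) * 𝒞.w α x x' :=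
            mul_nonneg (mul_nonneg hLα (add_nonneg hA hB)) (hw0 x x')
          nlinarith
  intro x x'
  by_cases hx : x ∈ S <;> by_cases hx' : x' ∈ S
  · have h2 : 𝒞.η i x • g (𝒞.e i x) - 𝒞.η i x' • g (𝒞.e i x') =
        (𝒞.η i x - 𝒞.η i x') • g (𝒞.e i x) + 𝒞.η i x' • (g (𝒞.e i x) - g (𝒞.e i x')) := by
      rw [sub_smul, smul_sub]; abel
    rw [h2]
    refine (norm_add_le _ _).trans ?_
    rw [norm_smul, norm_smul, Real.norm_eq_abs, Real.norm_eq_abs]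
    have h3 := hη x x'
    have h4 := hgA _ (hSb x hx)
    have h5 := hgB _ (hSb x hx) _ (hSb x' hx')
    have h6 := 𝒞.abs_η_le i x'
    have h7 : ‖𝒞.e i x - 𝒞.e i x'‖ ^ α ≤ L ^ α * 𝒞.w α x x' := by
      rw [𝒞.coe_w, ← Real.mul_rpow hL0 (𝒞.d_nonneg _ _)]
      have := hL x hx x' hx'
      gcongr
    calc |𝒞.η i x - 𝒞.η i x'| * ‖g (𝒞.e i x)‖ +
          |𝒞.η i x'| * ‖g (𝒞.e i x) - g (𝒞.e i x')‖
        ≤ (𝒞.D ^ (1 - α) * 𝒞.w α x x') * A + 1 * (B * (L ^ α * 𝒞.w α x x')) := by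
          have := hw0 x x'
          have h8 := h5.trans (mul_le_mul_of_nonneg_left h7 hB)
          gcongr
      _ ≤ (𝒞.D ^ (1 - α) + L ^ α) * (A + B) * 𝒞.w α x x' := by
          have h8 : 0 ≤ 𝒞.D ^ (1 - α) * B * 𝒞.w α x x' :=
            mul_nonneg (mul_nonneg hD hB) (hw0 x x')
          have h9 : 0 ≤ L ^ α * A * 𝒞.w α x x' :=
            mul_nonneg (mul_nonneg hLα hA) (hw0 x x')
          nlinarith
  · rw [hηS x' hx', zero_smul, sub_zero]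
    exact hone x x' hx hx'
  · rw [hηS x hx, zero_smul, zero_sub, norm_neg]
    have h2 : (𝒞.w α x x' : ℝ) = 𝒞.w α x' x := by
      rw [𝒞.coe_w, 𝒞.coe_w, 𝒞.d_comm]
    rw [h2]
    exact hone x' x hx' hx
  · rw [hηS x' hx', hηS x hx, zero_smul, zero_smul, sub_zero, norm_zero]
    exact mul_nonneg (mul_nonneg (by positivity) (add_nonneg hA hB)) (hw0 x x')

omit [FiniteDimensional ℝ E] [T2Space X] [RSm E X] in
/-- The chart balls can be enlarged. -/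
theorem exists_bigger [ProperSpace E] (𝒞 : Cov E X) (i : Fin 𝒞.N) :
    ∃ R, 3 * 𝒞.r i < R ∧ closedBall (𝒞.c i) R ⊆ (𝒞.e i).target := by
  obtain ⟨δ, hδ, h⟩ := (isCompact_closedBall (𝒞.c i) (3 * 𝒞.r i)).exists_cthickening_subset_open
    (𝒞.e i).open_target (𝒞.sub i)
  refine ⟨3 * 𝒞.r i + δ, by linarith, fun y hy => h ?_⟩
  have hr : 0 ≤ 3 * 𝒞.r i := by have := 𝒞.r_pos i; linarith
  rw [cthickening_closedBall hδ.le hr]
  rwa [add_comm] at hy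

/-- **Interpolation on `X`.** A function which is small in the sup norm and whose second
derivatives in the charts of the cover have bounded `β`-Hölder constants on slightly larger balls,
is small in `C^{2,α}`, `α < β`. -/
theorem exists_c2_small (𝒞 : Cov E X) {α β : ℝ} (h0 : 0 < α) (h1 : α ≤ 1) (hαβ : α < β)
    (R : Fin 𝒞.N → ℝ) (hR : ∀ i, 3 * 𝒞.r i < R i)
    (hRs : ∀ i, closedBall (𝒞.c i) (R i) ⊆ (𝒞.e i).target) (M : Fin 𝒞.N → ℝ)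
    {δ : ℝ} (hδ : 0 < δ) :
    ∃ ε > 0, ∀ v : X → ℝ, CkFn E 2 v → (∀ x, |v x| ≤ ε) →
      (∀ i, ∀ y ∈ closedBall (𝒞.c i) (R i), ∀ y' ∈ closedBall (𝒞.c i) (R i),
        ‖fderiv ℝ (fderiv ℝ fun z => v ((𝒞.e i).symm z)) y -
          fderiv ℝ (fderiv ℝ fun z => v ((𝒞.e i).symm z)) y'‖ ≤ M i * ‖y - y'‖ ^ β) →
      (∀ x, |v x| ≤ δ) ∧ (∀ x x', |v x - v x'| ≤ δ * 𝒞.w α x x') ∧
      (∀ i x, ‖𝒞.η i x • jet (fun z => v ((𝒞.e i).symm z)) (𝒞.e i x)‖ ≤ δ) ∧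
      ∀ i x x', ‖𝒞.η i x • jet (fun z => v ((𝒞.e i).symm z)) (𝒞.e i x) -
        𝒞.η i x' • jet (fun z => v ((𝒞.e i).symm z)) (𝒞.e i x')‖ ≤ δ * 𝒞.w α x x' := by
  choose C hC0 hC using fun i => exists_cut_hol (V := Jet E) 𝒞 h0 h1 i
  -- the smallness on the chart balls
  set τ : Fin 𝒞.N → ℝ := fun i => min δ (δ / (2 * C i + 1)) with hτ
  have hτ0 : ∀ i, 0 < τ i := fun i => by have := hC0 i; positivity
  have hτ1 : ∀ i, τ i ≤ δ := fun i => min_le_left _ _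
  have hτ2 : ∀ i, C i * (τ i + τ i) ≤ δ := by
    intro i
    have h2 : τ i ≤ δ / (2 * C i + 1) := min_le_right _ _
    have h3 := hC0 i
    rw [le_div_iff₀ (by positivity)] at h2
    nlinarith [hτ0 i]
  have key : ∀ i, ∃ ε > 0, ∀ f : E → ℝ, (∀ y ∈ closedBall (𝒞.c i) (R i), ContDiffAt ℝ 2 f y) →
      (∀ y ∈ closedBall (𝒞.c i) (R i), ∀ y' ∈ closedBall (𝒞.c i) (R i),
        ‖fderiv ℝ (fderiv ℝ f) y - fderiv ℝ (fderiv ℝ f) y'‖ ≤ M i * ‖y - y'‖ ^ β) →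
      (∀ y ∈ closedBall (𝒞.c i) (R i), |f y| ≤ ε) →
      (∀ y ∈ closedBall (𝒞.c i) (3 * 𝒞.r i), ‖jet f y‖ ≤ τ i) ∧
      ∀ y ∈ closedBall (𝒞.c i) (3 * 𝒞.r i), ∀ y' ∈ closedBall (𝒞.c i) (3 * 𝒞.r i),
        ‖jet f y - jet f y'‖ ≤ τ i * ‖y - y'‖ ^ α := fun i =>
    interp (𝒞.c i) (by have := 𝒞.r_pos i; positivity) (hR i) h0 h1 hαβ (M i) (hτ0 i)
  choose ε hε0 hε using key
  obtain ⟨ε', hε'0, hε'⟩ := Cov.exists_pos_le ε hε0
  obtain ⟨ρ, hρ, hnear⟩ := 𝒞.exists_near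
  have hρα : 0 < ρ ^ α := Real.rpow_pos_of_pos hρ _
  refine ⟨min ε' (min δ (δ * ρ ^ α / 2)), by positivity, fun v hv hs hH => ?_⟩
  have hjet : ∀ i, (∀ y ∈ closedBall (𝒞.c i) (3 * 𝒞.r i),
      ‖jet (fun z => v ((𝒞.e i).symm z)) y‖ ≤ τ i) ∧
      ∀ y ∈ closedBall (𝒞.c i) (3 * 𝒞.r i), ∀ y' ∈ closedBall (𝒞.c i) (3 * 𝒞.r i),
        ‖jet (fun z => v ((𝒞.e i).symm z)) y - jet (fun z => v ((𝒞.e i).symm z)) y'‖ ≤
          τ i * ‖y - y'‖ ^ α := fun i =>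
    hε i _ (fun y hy => hv.at_target (𝒞.mem i) (hRs i hy)) (hH i)
      fun y _ => (hs _).trans ((min_le_left _ _).trans (hε' i))
  have hsd : ∀ x, |v x| ≤ δ := fun x =>
    (hs x).trans ((min_le_right _ _).trans (min_le_left _ _))
  have hsρ : ∀ x, |v x| ≤ δ * ρ ^ α / 2 := fun x =>
    (hs x).trans ((min_le_right _ _).trans (min_le_right _ _))
  have hjh : ∀ i x x', ‖𝒞.η i x • jet (fun z => v ((𝒞.e i).symm z)) (𝒞.e i x) -
        𝒞.η i x' • jet (fun z => v ((𝒞.e i).symm z)) (𝒞.e i x')‖ ≤ δ * 𝒞.w α x x' := by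
    intro i x x'
    refine (hC i _ (τ i) (τ i) (hτ0 i).le (hτ0 i).le (hjet i).1 (hjet i).2 x x').trans ?_
    exact mul_le_mul_of_nonneg_right (hτ2 i) (NNReal.coe_nonneg _)
  refine ⟨hsd, fun x x' => ?_, fun i x => ?_, hjh⟩
  · rcases lt_or_ge (𝒞.d x x') ρ with h | h
    · obtain ⟨i, hx, hx', hxi, hxi', -⟩ := hnear x x' h
      have h2 := hjh i x x'
      rw [𝒞.η_eq_one hx (ball_subset_closedBall hxi), 𝒞.η_eq_one hx' (ball_subset_closedBall hxi'),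
        one_smul, one_smul] at h2
      have h3 := (norm_fst_le (jet (fun z => v ((𝒞.e i).symm z)) (𝒞.e i x) -
        jet (fun z => v ((𝒞.e i).symm z)) (𝒞.e i x'))).trans h2
      simpa only [jet, Prod.fst_sub, (𝒞.e i).left_inv hx, (𝒞.e i).left_inv hx',
        Real.norm_eq_abs] using h3
    · have h2 : ρ ^ α ≤ 𝒞.w α x x' := by
        rw [𝒞.coe_w]
        gcongr
      calc |v x - v x'| ≤ |v x| + |v x'| := abs_sub _ _
        _ ≤ δ * ρ ^ α := by linarith [hsρ x, hsρ x']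
        _ ≤ δ * 𝒞.w α x x' := by gcongr
  · by_cases hx : 𝒞.η i x = 0
    · rw [hx, zero_smul, norm_zero]; exact hδ.le
    · obtain ⟨hx1, hx2⟩ := 𝒞.η_ne_zero hx
      rw [norm_smul, Real.norm_eq_abs]
      calc |𝒞.η i x| * ‖jet (fun z => v ((𝒞.e i).symm z)) (𝒞.e i x)‖ ≤ 1 * τ i := by
            have := 𝒞.abs_η_le i x
            have := (hjet i).1 _ (ball_subset_closedBall hx2)
            have := hτ0 i
            gcongr
        _ ≤ δ := by rw [one_mul]; exact hτ1 i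

/-- The same with all bounds stated with the Whitney distance. -/
theorem interp_X (𝒞 : Cov E X) {α β : ℝ} (h0 : 0 < α) (hαβ : α < β) (hβ : β < 1)
    (R : Fin 𝒞.N → ℝ) (hR : ∀ i, 3 * 𝒞.r i < R i)
    (hRt : ∀ i, closedBall (𝒞.c i) (R i) ⊆ (𝒞.e i).target) (M : ℝ) :
    ∀ δ > 0, ∃ ε > 0, ∀ f : X → ℝ, CkFn E 2 f → (∀ x, |f x| ≤ ε) →
      (∀ i, ∀ y ∈ closedBall (𝒞.c i) (R i), ∀ y' ∈ closedBall (𝒞.c i) (R i),
        ‖fderiv ℝ (fderiv ℝ fun z => f ((𝒞.e i).symm z)) y -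
          fderiv ℝ (fderiv ℝ fun z => f ((𝒞.e i).symm z)) y'‖ ≤ M * ‖y - y'‖ ^ β) →
      (∀ x, |f x| ≤ δ) ∧ (∀ x y, |f x - f y| ≤ δ * 𝒞.d x y ^ α) ∧
      ∀ i, (∀ x, ‖𝒞.η i x • jet (fun z => f ((𝒞.e i).symm z)) (𝒞.e i x)‖ ≤ δ) ∧
      ∀ x y, ‖𝒞.η i x • jet (fun z => f ((𝒞.e i).symm z)) (𝒞.e i x) -
        𝒞.η i y • jet (fun z => f ((𝒞.e i).symm z)) (𝒞.e i y)‖ ≤ δ * 𝒞.d x y ^ α := by
  intro δ hδ
  obtain ⟨ε, hε, h⟩ := exists_c2_small 𝒞 h0 (hαβ.le.trans hβ.le) hαβ R hR hRt (fun _ => M) hδ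
  refine ⟨ε, hε, fun f hf hs hH => ?_⟩
  obtain ⟨h2, h3, h4, h5⟩ := h f hf hs hH
  simp only [Cov.coe_w] at h3 h5
  exact ⟨h2, h3, fun i => ⟨h4 i, h5 i⟩⟩

end Vale.Agent.P272.K.N
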