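import Vale.Agent.P272.K.N.Assembly
import Vale.Agent.P272.K.N.InterpX
import Vale.Agent.P272.K.LIN.Ell
import Vale.Agent.P272.K.EST.Main
import Vale.Agent.P272.K.IE.Final
import Vale.Agent.P272.K.R.Final
import Vale.Agent.P272.K.C2.Main

/-! The Aubin-Yau theorem: all blocks plugged in. -/

open scoped Manifold ContDiff ComplexOrder Topology NNReal
open Complex Filter Metric Set

set_option maxSynthPendingDepth 3
set_option linter.unusedSectionVars false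

noncomputable section

namespace Vale.Agent.P272.K.N

open Vale.Agent.P272.K Vale.Agent.P272.K.LIN

section
variable {n : ℕ} {X : Type*} [TopologicalSpace X] [ChartedSpace (Cm n) X]

/-- helper653's space `C^{2,α}(X)` as `C2Data` -/
def c2Data (𝒞 : Cov (Cm n) X) (α : ℝ) : C2Data 𝒞 α (𝒞.C2 α) where
  I := 𝒞.incl α
  J i := (Hol.map ((ContinuousLinearMap.snd ℝ (Cm n →L[ℝ] ℝ) (Bil n)).comp
    (ContinuousLinearMap.snd ℝ ℝ ((Cm n →L[ℝ] ℝ) × Bil n)))).comp (𝒞.J α i)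
  ck2 v := 𝒞.fn_ck v
  J_apply i v x := by
    show (𝒞.J α i v x).2.2 = _
    rw [𝒞.J_apply]
    rfl

theorem normCrit (𝒞 : Cov (Cm n) X) {α : ℝ} : NormCrit (c2Data 𝒞 α) := by
  refine ⟨2, fun v δ hδ a1 a2 a3 a4 => ?_⟩
  refine 𝒞.norm_C2_le (by positivity) ?_ fun i => ?_
  · have := Hol.norm_le_of (f := 𝒞.incl α v) hδ hδ (fun x => a1 x)
      (fun x y => by rw [𝒞.coe_w]; exact a2 x y)
    linarith
  · have := Hol.norm_le_of (f := 𝒞.J α i v) hδ hδ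
      (fun x => by rw [𝒞.J_apply]; exact a3 i x)
      (fun x y => by rw [𝒞.J_apply, 𝒞.J_apply, 𝒞.coe_w]; exact a4 i x y)
    linarith

/-- block LT in the form of `K/LIN/Ell.lean`, for `λ = 1` -/
def LTX (n : ℕ) (X : Type*) [TopologicalSpace X] [ChartedSpace (Cm n) X] (α : ℝ) : Prop :=
  ∀ (𝒞 : Cov (Cm n) X) (L : 𝒞.C2 α →L[ℝ] Hol (𝒞.w α) ℝ)
    (a : Fin 𝒞.N → Cm n → (Cm n →L[ℝ] Cm n →L[ℝ] ℝ) →L[ℝ] ℝ)
    (b : Fin 𝒞.N → Cm n → (Cm n →L[ℝ] ℝ) →L[ℝ] ℝ), Cov.Ell 𝒞 α L a b →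
    Function.Surjective fun v => 𝒞.incl α v - L v

theorem ltStatement {α : ℝ} (h : LTX n X α) (𝒞 : Cov (Cm n) X) :
    LTStatement (c2Data 𝒞 α) := by
  intro L a ha hpos heq f
  refine h 𝒞 L a (fun _ _ => 0) ⟨ha, fun i => ⟨0, fun y _ y' _ => ?_⟩, hpos, fun v i x hx hi => ?_⟩ f
  · simp
  · rw [heq i v x hx hi]
    show _ = _ + (0 : (Cm n →L[ℝ] ℝ) →L[ℝ] ℝ) _
    rw [_root_.zero_apply, add_zero]
    rfl

end

theorem interpStatement {n : ℕ} {X : Type*} [TopologicalSpace X] [ChartedSpace (Cm n) X]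
    [CompactSpace X] [T2Space X] [IsManifold (modelWithCornersSelf ℂ (Cm n)) ω X]
    (𝒞 : Cov (Cm n) X) {α β : ℝ} (h0 : 0 < α) (hαβ : α < β) (hβ : β < 1) :
    InterpStatement 𝒞 α β :=
  fun R hR hRt M => interp_X 𝒞 h0 hαβ hβ R hR hRt M

theorem c2Statement {n : ℕ} {X : Type} [TopologicalSpace X] [ChartedSpace (Cm n) X]
    [CompactSpace X] [T2Space X] [IsManifold (modelWithCornersSelf ℂ (Cm n)) ω X] :
    EST.C2Statement n X := by
  intro χ hχ F hF M0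
  obtain ⟨C, hC, h⟩ := C2.c2_estimate hχ hF M0
  exact ⟨C, hC, fun s hs u a b c d => h s hs.1 hs.2 u a b c d⟩

/-- **Aubin-Yau**, from the Calabi estimate and the linear theorem. -/
theorem aubinYau_of (n : ℕ) (X : Type) [TopologicalSpace X] [ChartedSpace (Cm n) X]
    [CompactSpace X] [T2Space X] [IsManifold (modelWithCornersSelf ℂ (Cm n)) ω X]
    (hC3 : C3.CalabiStatement) (hLT : LTX n X (1 / 3)) : AubinYau n X := by
  intro χ hχ F hF
  obtain ⟨𝒞⟩ := Cov.nonempty (Cm n) X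
  haveI : CompleteSpace (𝒞.C2 (1 / 3 : ℝ)) := 𝒞.completeSpace_C2 (by norm_num)
  exact solve (c2Data 𝒞 (1 / 3)) hχ (EST.est c2Statement hC3 IE.ie) (by norm_num)
    (β := 2 / 3) (by norm_num) (by norm_num) (R.reg (Cm n) (by norm_num) (by norm_num))
    (ltStatement hLT 𝒞) (normCrit 𝒞)
    (interpStatement 𝒞 (by norm_num) (by norm_num) (by norm_num)) hF

end Vale.Agent.P272.K.N
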