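import Vale.Agent.P272.K.N.MaxP
import Mathlib.Analysis.Calculus.Deriv.Polynomial
import Mathlib.Analysis.Complex.RealDeriv
import Mathlib.LinearAlgebra.Matrix.Charpoly.Coeff
import Mathlib.Analysis.Calculus.ContDiff.Operations

/-! Determinants: smoothness, Jacobi's formula, positivity is an open condition, ellipticity. -/

open scoped Manifold ContDiff ComplexOrder Topology
open Complex Filter

noncomputable section

namespace Vale.Agent.P272.K.N

open Vale.Agent.P272.K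

/-- The determinant of a matrix with smooth entries in a commutative normed algebra is smooth. -/
theorem contDiff_det {𝕜 E A : Type*} [NontriviallyNormedField 𝕜] [NormedAddCommGroup E]
    [NormedSpace 𝕜 E] [NormedCommRing A] [NormedAlgebra 𝕜 A] {m : WithTop ℕ∞} {n : ℕ}
    {M : E → Matrix (Fin n) (Fin n) A} (hM : ∀ i j, ContDiff 𝕜 m fun v => M v i j) :
    ContDiff 𝕜 m fun v => (M v).det := by
  simp only [Matrix.det_apply]
  refine ContDiff.sum fun σ _ => ?_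
  have h1 : ContDiff 𝕜 m fun v => ∏ i, M v (σ i) i := contDiff_prod fun i _ => hM _ _
  rcases Int.units_eq_one_or (Equiv.Perm.sign σ) with h | h
  · simpa [h] using h1
  · simpa [h] using h1.neg

/-- **Jacobi's formula** along a line. -/
theorem hasDerivAt_det_line {n : ℕ} (P Q : Matrix (Fin n) (Fin n) ℂ) (hP : IsUnit P.det) :
    HasDerivAt (fun t : ℝ => (P + (t : ℂ) • Q).det) (P.det * (P⁻¹ * Q).trace) 0 := by
  set M := P⁻¹ * Q with hM
  set p : Polynomial ℂ := (1 + (Polynomial.X : Polynomial ℂ) • M.map Polynomial.C).det with hp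
  have hev : ∀ t : ℂ, p.eval t = (1 + t • M).det := by
    intro t
    rw [hp, ← Polynomial.coe_evalRingHom, RingHom.map_det]
    congr 1
    ext i j
    simp [Matrix.one_apply, apply_ite]
    rw [mul_comm]
  have hd : HasDerivAt (fun t : ℂ => p.eval t) M.trace 0 := by
    have := p.hasDerivAt 0
    rwa [hp, Matrix.derivative_det_one_add_X_smul] at this
  have hd2 : HasDerivAt (fun t : ℝ => p.eval (t : ℂ)) M.trace 0 := by
    have h0 : HasDerivAt (fun t : ℂ => p.eval t) M.trace ((0:ℝ):ℂ) := by simpa using hd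
    exact h0.comp_ofReal
  have hd3 := hd2.const_mul P.det
  refine hd3.congr_of_eventuallyEq (Eventually.of_forall fun t => ?_)
  show (P + (t : ℂ) • Q).det = P.det * p.eval (t : ℂ)
  rw [hev, ← Matrix.det_mul, Matrix.mul_add, Matrix.mul_one, Matrix.mul_smul, hM,
    ← Matrix.mul_assoc, Matrix.mul_nonsing_inv _ hP, Matrix.one_mul]

/-- coercivity of a positive definite matrix -/
theorem exists_coercive {n : ℕ} {P : Matrix (Fin n) (Fin n) ℂ} (hP : P.PosDef) :
    ∃ c : ℝ, 0 < c ∧ ∀ x : Cm n, c * ‖x‖ ^ 2 ≤ (star x ⬝ᵥ P.mulVec x).re := by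
  have hcont : Continuous fun x : Cm n => (star x ⬝ᵥ P.mulVec x).re := by
    refine Complex.continuous_re.comp ?_
    simp only [dotProduct, Matrix.mulVec]
    fun_prop
  have hK : IsCompact (Metric.sphere (0 : Cm n) 1) := isCompact_sphere _ _
  have hpos : ∀ x ∈ Metric.sphere (0 : Cm n) 1, 0 < (star x ⬝ᵥ P.mulVec x).re := by
    intro x hx
    have hx0 : x ≠ 0 := by
      rintro rfl; simp at hx
    exact (Complex.pos_iff.1 (hP.dotProduct_mulVec_pos hx0)).1
  obtain ⟨c, hc, hc2⟩ : ∃ c : ℝ, 0 < c ∧ ∀ x ∈ Metric.sphere (0 : Cm n) 1,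
      c ≤ (star x ⬝ᵥ P.mulVec x).re := by
    rcases (Metric.sphere (0 : Cm n) 1).eq_empty_or_nonempty with h | h
    · exact ⟨1, one_pos, by simp [h]⟩
    · obtain ⟨x0, hx0, hmin⟩ := hK.exists_isMinOn h hcont.continuousOn
      exact ⟨_, hpos x0 hx0, fun x hx => hmin hx⟩
  refine ⟨c, hc, fun x => ?_⟩
  by_cases hx : x = 0
  · simp [hx]
  have hn : 0 < ‖x‖ := norm_pos_iff.2 hx
  have h1 := hc2 ((‖x‖⁻¹ : ℝ) • x) (by simp [norm_smul, hn.ne'])
  have h2 : star ((‖x‖⁻¹ : ℝ) • x) ⬝ᵥ P.mulVec ((‖x‖⁻¹ : ℝ) • x) =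
      ((‖x‖⁻¹ ^ 2 : ℝ) : ℂ) * (star x ⬝ᵥ P.mulVec x) := by
    have e : ((‖x‖⁻¹ : ℝ) • x) = ((‖x‖⁻¹ : ℝ) : ℂ) • x := by
      ext i; simp
    rw [e, star_smul, smul_dotProduct, Matrix.mulVec_smul, dotProduct_smul]
    simp only [smul_eq_mul, Complex.star_def, Complex.conj_ofReal]
    push_cast; ring
  rw [h2, Complex.re_ofReal_mul] at h1
  have h3 : ‖x‖ ^ 2 * (‖x‖⁻¹ ^ 2 * (star x ⬝ᵥ P.mulVec x).re) = (star x ⬝ᵥ P.mulVec x).re := by
    field_simp
  have h4 := mul_le_mul_of_nonneg_left h1 (sq_nonneg ‖x‖)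
  rw [h3] at h4
  linarith

theorem re_quadratic_le {n : ℕ} {D : Matrix (Fin n) (Fin n) ℂ} {ε : ℝ} (hD : ∀ i j, ‖D i j‖ ≤ ε)
    (x : Cm n) : ‖star x ⬝ᵥ D.mulVec x‖ ≤ (n : ℝ) ^ 2 * ε * ‖x‖ ^ 2 := by
  have h1 : star x ⬝ᵥ D.mulVec x = ∑ i, ∑ j, star (x i) * (D i j * x j) := by
    simp [dotProduct, Matrix.mulVec, Finset.mul_sum]
  rw [h1]
  calc ‖∑ i, ∑ j, star (x i) * (D i j * x j)‖ ≤ ∑ i : Fin n, ∑ j : Fin n, ‖x‖ * (ε * ‖x‖) := by
        refine (norm_sum_le _ _).trans (Finset.sum_le_sum fun i _ => (norm_sum_le _ _).trans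
          (Finset.sum_le_sum fun j _ => ?_))
        rw [norm_mul, norm_mul, norm_star]
        have h2 := norm_le_pi_norm x i
        have h3 := norm_le_pi_norm x j
        have h4 := hD i j
        have h5 : 0 ≤ ε := (norm_nonneg _).trans h4
        gcongr
    _ = (n : ℝ) ^ 2 * ε * ‖x‖ ^ 2 := by
        simp [Finset.sum_const]; ring

/-- positive definiteness is an open condition among Hermitian matrices -/
theorem posDef_of_near {n : ℕ} {P : Matrix (Fin n) (Fin n) ℂ} (hP : P.PosDef) :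
    ∃ ε : ℝ, 0 < ε ∧ ∀ M : Matrix (Fin n) (Fin n) ℂ, M.IsHermitian → (∀ i j, ‖M i j - P i j‖ ≤ ε) →
      M.PosDef := by
  obtain ⟨c, hc, hcx⟩ := exists_coercive hP
  refine ⟨c / (2 * ((n:ℝ) ^ 2 + 1)), by positivity, fun M hM hMP => ?_⟩
  refine Matrix.PosDef.of_dotProduct_mulVec_pos hM fun x hx => ?_
  have him : (star x ⬝ᵥ M.mulVec x).im = 0 := by
    simpa using hM.im_star_dotProduct_mulVec_self x
  have h1 := re_quadratic_le (D := M - P) (ε := c / (2 * ((n:ℝ) ^ 2 + 1))) (by simpa using hMP) x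
  have h2 : star x ⬝ᵥ M.mulVec x = star x ⬝ᵥ P.mulVec x + star x ⬝ᵥ (M - P).mulVec x := by
    rw [← dotProduct_add, ← Matrix.add_mulVec]; simp
  have h3 := hcx x
  have h4 : -‖star x ⬝ᵥ (M - P).mulVec x‖ ≤ (star x ⬝ᵥ (M - P).mulVec x).re :=
    neg_le_of_abs_le (Complex.abs_re_le_norm _)
  have hn : 0 < ‖x‖ ^ 2 := by positivity
  have h5 : (n:ℝ) ^ 2 * (c / (2 * ((n:ℝ) ^ 2 + 1))) ≤ c / 2 := by
    rw [← mul_div_assoc, div_le_div_iff₀ (by positivity) (by positivity)]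
    nlinarith [sq_nonneg (n:ℝ)]
  rw [Complex.pos_iff]
  refine ⟨?_, him.symm⟩
  rw [h2, Complex.add_re]
  nlinarith

variable {n : ℕ}

theorem lev_rankOne (l : Cm n →L[ℝ] ℝ) (j k : Fin n) :
    lev (l.smulRight l) j k =
      (((l (Pi.single j 1) : ℝ) : ℂ) - I * (l (Pi.single j I) : ℝ)) / 2 *
      star ((((l (Pi.single k 1) : ℝ) : ℂ) - I * (l (Pi.single k I) : ℝ)) / 2) := by
  have e2 : (2 : ℂ) = ((2:ℝ):ℂ) := by norm_num
  simp only [lev_apply, ContinuousLinearMap.smulRight_apply, _root_.smul_apply, smul_eq_mul,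
    Complex.star_def, map_div₀, map_sub, map_mul, conj_ofReal, conj_I, e2]
  push_cast
  linear_combination (((l (Pi.single j I) : ℝ) : ℂ) * ((l (Pi.single k I) : ℝ) : ℂ)/4) * I_sq

/-- **Ellipticity**: `tr (g⁻¹ lev (l ⊗ l)) > 0`. -/
theorem trace_inv_lev_pos {g : Matrix (Fin n) (Fin n) ℂ} (hg : g.PosDef) {l : Cm n →L[ℝ] ℝ}
    (hl : l ≠ 0) : 0 < (g⁻¹ * lev (l.smulRight l)).trace.re := by
  set a : Cm n := fun j => (((l (Pi.single j 1) : ℝ) : ℂ) - I * (l (Pi.single j I) : ℝ)) / 2 with ha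
  have h1 : lev (l.smulRight l) = Matrix.vecMulVec a (star a) := by
    ext j k
    rw [lev_rankOne, Matrix.vecMulVec_apply]
    rfl
  have ha0 : a ≠ 0 := by
    intro h0
    apply hl
    have h2 : ∀ j, l (Pi.single j 1) = 0 ∧ l (Pi.single j I) = 0 := by
      intro j
      have h3 : a j = 0 := by rw [h0]; rfl
      simp only [ha] at h3
      have h4 := congrArg Complex.re h3
      have h5 := congrArg Complex.im h3
      have e2 : (2 : ℂ) = ((2:ℝ):ℂ) := by norm_num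
      rw [e2, div_ofReal_re] at h4
      rw [e2, div_ofReal_im] at h5
      simp at h4 h5
      exact ⟨h4, h5⟩
    ext ξ
    rw [decomp ξ, map_sum]
    simp [map_add, map_smul, h2]
  have h2 : (g⁻¹ * lev (l.smulRight l)).trace = star a ⬝ᵥ g⁻¹.mulVec a := by
    rw [h1, Matrix.mul_vecMulVec, Matrix.trace_vecMulVec, dotProduct_comm]
  rw [h2]
  exact (Complex.pos_iff.1 (hg.inv.dotProduct_mulVec_pos ha0)).1

end Vale.Agent.P272.K.N
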