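import Vale.Agent.P272.K.LIN.Hol
import Vale.Agent.P272.K.N.Det
import Mathlib.Analysis.SpecialFunctions.Exponential
import Mathlib.Analysis.SpecialFunctions.ExpDeriv
import Mathlib.Analysis.Calculus.ContDiff.RCLike

/-! The Monge-Ampère operator as a polynomial map between Banach spaces (block N, F3). -/

open scoped ContDiff ComplexOrder Topology NNReal
open Complex Filter

noncomputable section

namespace Vale.Agent.P272.K.N

open Vale.Agent.P272.K Vale.Agent.P272.K.LIN

variable {n : ℕ}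

/-- entries of `lev` as continuous linear maps -/
def levL (j k : Fin n) : Bil n →L[ℝ] ℂ :=
  LinearMap.toContinuousLinearMap
    { toFun := fun B => lev B j k
      map_add' := fun B C => by rw [lev_add]; rfl
      map_smul' := fun c B => by rw [lev_smul]; simp [Matrix.smul_apply] }

@[simp] theorem levL_apply (j k : Fin n) (B : Bil n) : levL j k B = lev B j k := rfl

variable {Y : Type*} {w : Y → Y → ℝ≥0}

/-- the Levi matrix of a `Bil`-valued Hölder function -/
def levH (f : Hol w (Bil n)) : Matrix (Fin n) (Fin n) (Hol w ℂ) :=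
  Matrix.of fun j k => Hol.map (levL j k) f

@[simp] theorem levH_apply (f : Hol w (Bil n)) (j k : Fin n) (x : Y) :
    levH f j k x = lev (f x) j k := rfl

/-- evaluation of a matrix of Hölder functions -/
def evM {W : Type*} [NormedAddCommGroup W] (M : Matrix (Fin n) (Fin n) (Hol w W)) (x : Y) :
    Matrix (Fin n) (Fin n) W :=
  Matrix.of fun j k => M j k x

@[simp] theorem evM_apply {W : Type*} [NormedAddCommGroup W] (M : Matrix (Fin n) (Fin n) (Hol w W))
    (x : Y) (j k : Fin n) : evM M x j k = M j k x := rfl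

theorem evM_levH (f : Hol w (Bil n)) (x : Y) : evM (levH f) x = lev (f x) := rfl

theorem evM_mul (M N : Matrix (Fin n) (Fin n) (Hol w ℂ)) (x : Y) :
    evM (M * N) x = evM M x * evM N x := by
  ext j k
  simp only [evM_apply, Matrix.mul_apply, Hol.sum_apply, Hol.mul_apply]

theorem evM_add (M N : Matrix (Fin n) (Fin n) (Hol w ℂ)) (x : Y) :
    evM (M + N) x = evM M x + evM N x := rfl

theorem evM_one (x : Y) : evM (1 : Matrix (Fin n) (Fin n) (Hol w ℂ)) x = 1 := by
  ext j k
  simp only [evM_apply, Matrix.one_apply]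
  split_ifs <;> rfl

theorem det_apply (M : Matrix (Fin n) (Fin n) (Hol w ℂ)) (x : Y) : M.det x = (evM M x).det :=
  Hol.det_apply M x

theorem evM_adjugate (M : Matrix (Fin n) (Fin n) (Hol w ℂ)) (x : Y) :
    evM M.adjugate x = (evM M x).adjugate := by
  have h := RingHom.map_adjugate (Hol.evalRingHom (w := w) (A := ℂ) x) M
  exact h

section
variable {V : Type*} [NormedAddCommGroup V] [NormedSpace ℝ V] {ι : Type*} [Fintype ι]

/-- The matrix `χ⁻¹ (χ + i∂∂̄v)`. -/
def relM (S : Matrix (Fin n) (Fin n) (Hol w ℂ)) (J : V →L[ℝ] Hol w (Bil n)) (v : V) :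
    Matrix (Fin n) (Fin n) (Hol w ℂ) := 1 + S * levH (J v)

/-- The Monge-Ampère operator. -/
def MA (ρ : ι → Hol w ℝ) (S : ι → Matrix (Fin n) (Fin n) (Hol w ℂ))
    (J : ι → V →L[ℝ] Hol w (Bil n)) (v : V) : Hol w ℝ :=
  ∑ i, ρ i * Hol.map Complex.reCLM (relM (S i) (J i) v).det

theorem MA_apply (ρ : ι → Hol w ℝ) (S : ι → Matrix (Fin n) (Fin n) (Hol w ℂ))
    (J : ι → V →L[ℝ] Hol w (Bil n)) (v : V) (x : Y) :
    MA ρ S J v x = ∑ i, ρ i x * (1 + evM (S i) x * lev (J i v x)).det.re := by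
  simp only [MA, Hol.sum_apply, Hol.mul_apply, Hol.map_apply, det_apply, relM, evM_add, evM_one,
    evM_mul, evM_levH]
  rfl

theorem contDiff_MA (ρ : ι → Hol w ℝ) (S : ι → Matrix (Fin n) (Fin n) (Hol w ℂ))
    (J : ι → V →L[ℝ] Hol w (Bil n)) : ContDiff ℝ ∞ (MA ρ S J) := by
  unfold MA
  refine ContDiff.sum fun i _ => ?_
  refine contDiff_const.mul ?_
  refine (Hol.map Complex.reCLM).contDiff.comp (contDiff_det fun j k => ?_)
  simp only [relM, Matrix.add_apply, Matrix.mul_apply]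
  refine contDiff_const.add (ContDiff.sum fun l _ => contDiff_const.mul ?_)
  exact ((Hol.map (levL l k)).comp (J i)).contDiff

/-- The operator of the continuity method, `G (s, u) = MA u - exp (u + s F)`. -/
def Gop (ρ : ι → Hol w ℝ) (S : ι → Matrix (Fin n) (Fin n) (Hol w ℂ))
    (J : ι → V →L[ℝ] Hol w (Bil n)) (I : V →L[ℝ] Hol w ℝ) (F : Hol w ℝ) (p : ℝ × V) : Hol w ℝ :=
  MA ρ S J p.2 - NormedSpace.exp (I p.2 + p.1 • F)

theorem Gop_apply (ρ : ι → Hol w ℝ) (S : ι → Matrix (Fin n) (Fin n) (Hol w ℂ))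
    (J : ι → V →L[ℝ] Hol w (Bil n)) (I : V →L[ℝ] Hol w ℝ) (F : Hol w ℝ) (p : ℝ × V) (x : Y) :
    Gop ρ S J I F p x = MA ρ S J p.2 x - Real.exp (I p.2 x + p.1 * F x) := by
  simp only [Gop, Hol.sub_apply, Hol.exp_apply, Hol.add_apply, Hol.smul_apply, smul_eq_mul]
  rw [Real.exp_eq_exp_ℝ]

variable (ρ : ι → Hol w ℝ) (S : ι → Matrix (Fin n) (Fin n) (Hol w ℂ))
    (J : ι → V →L[ℝ] Hol w (Bil n)) (I : V →L[ℝ] Hol w ℝ) (F : Hol w ℝ)

theorem exists_strict (p : ℝ × V) : HasStrictFDerivAt (Gop ρ S J I F)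
    (fderiv ℝ (Gop ρ S J I F) p) p := by
  have h1 : HasStrictFDerivAt (fun p : ℝ × V => MA ρ S J p.2)
      (fderiv ℝ (fun p : ℝ × V => MA ρ S J p.2) p) p :=
    (((contDiff_MA ρ S J).comp contDiff_snd).contDiffAt (x := p)).hasStrictFDerivAt (by simp)
  have h2 : HasStrictFDerivAt (fun p : ℝ × V => I p.2 + p.1 • F)
      (I.comp (ContinuousLinearMap.snd ℝ ℝ V) + (ContinuousLinearMap.fst ℝ ℝ V).smulRight F) p :=
    (I.comp (ContinuousLinearMap.snd ℝ ℝ V) +
      (ContinuousLinearMap.fst ℝ ℝ V).smulRight F).hasStrictFDerivAt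
  have h3 := (hasStrictFDerivAt_exp (𝕂 := ℝ) (𝔸 := Hol w ℝ) (x := I p.2 + p.1 • F)).comp p h2
  have h4 := h1.sub h3
  have h5 : HasStrictFDerivAt (Gop ρ S J I F) _ p := h4
  rw [h5.hasFDerivAt.fderiv]
  exact h5

/-- pointwise values of the derivative along a line -/
theorem fderiv_apply_eval {E : Type*} [NormedAddCommGroup E] [NormedSpace ℝ E]
    {W : Type*} [NormedAddCommGroup W] [NormedSpace ℝ W] {g : E → Hol w W} {p q : E}
    (hg : DifferentiableAt ℝ g p) {x : Y} {c : W}
    (h : HasDerivAt (fun t : ℝ => g (p + t • q) x) c 0) : (fderiv ℝ g p q) x = c := by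
  have h0 : HasDerivAt (fun t : ℝ => p + t • q) q 0 := by
    simpa using ((hasDerivAt_id (0:ℝ)).smul_const q).const_add p
  have h1 : HasFDerivAt g (fderiv ℝ g p) (p + (0:ℝ) • q) := by simpa using hg.hasFDerivAt
  have h2 := (Hol.evalL (w := w) (V := W) x).hasFDerivAt.comp_hasDerivAt (0:ℝ)
    (h1.comp_hasDerivAt (0:ℝ) h0)
  exact h2.unique h

/-- derivative of `MA` at a point where the `S i` are the inverse matrices of `χ_i` -/
theorem hasDerivAt_MA {u v : V} {x : Y} {E L : ℝ}
    (hρ : ∑ i, ρ i x = 1)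
    (hE : ∀ i, ρ i x ≠ 0 → IsUnit (1 + evM (S i) x * lev (J i u x)).det ∧
      (1 + evM (S i) x * lev (J i u x)).det = (E : ℂ) ∧
      ((1 + evM (S i) x * lev (J i u x))⁻¹ * (evM (S i) x * lev (J i v x))).trace.re = L) :
    HasDerivAt (fun t : ℝ => MA ρ S J (u + t • v) x) (E * L) 0 := by
  simp only [MA_apply]
  have h1 : ∀ i, HasDerivAt (fun t : ℝ => ρ i x *
      (1 + evM (S i) x * lev (J i (u + t • v) x)).det.re) (ρ i x * (E * L)) 0 := by
    intro i
    by_cases hi : ρ i x = 0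
    · simp only [hi, zero_mul]; exact hasDerivAt_const _ _
    obtain ⟨h2, h3, h4⟩ := hE i hi
    have h5 := hasDerivAt_det_line (1 + evM (S i) x * lev (J i u x))
      (evM (S i) x * lev (J i v x)) h2
    rw [h3] at h5
    have h6 : ∀ t : ℝ, 1 + evM (S i) x * lev (J i (u + t • v) x) =
        (1 + evM (S i) x * lev (J i u x)) + (t : ℂ) • (evM (S i) x * lev (J i v x)) := by
      intro t
      rw [map_add, map_smul, Hol.add_apply, Hol.smul_apply, lev_add, lev_smul, mul_add,
        Matrix.mul_smul, add_assoc]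
    simp only [h6]
    have h7 := (Complex.reCLM.hasFDerivAt.comp_hasDerivAt (0:ℝ) h5).const_mul (ρ i x)
    have h8 : reCLM ((E : ℂ) * ((1 + evM (S i) x * lev (J i u x))⁻¹ *
        (evM (S i) x * lev (J i v x))).trace) = E * L := by
      rw [← h4]; simp
    rw [h8] at h7
    exact h7
  have h9 : ∑ i, ρ i x * (E * L) = E * L := by rw [← Finset.sum_mul, hρ, one_mul]
  rw [← h9]
  exact HasDerivAt.fun_sum fun i _ => h1 i

/-- **The linearisation**: at `(s, u)` where `MA u = exp (u + s F)` at `x`, the derivative in the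
direction `(0, v)` is `exp (u + s F) * (L - v)` at `x`. -/
theorem fderiv_Gop_apply {s : ℝ} {u v : V} {x : Y} {L : ℝ}
    (hρ : ∑ i, ρ i x = 1)
    (hE : ∀ i, ρ i x ≠ 0 →
      (1 + evM (S i) x * lev (J i u x)).det = (Real.exp (I u x + s * F x) : ℂ) ∧
      ((1 + evM (S i) x * lev (J i u x))⁻¹ * (evM (S i) x * lev (J i v x))).trace.re = L) :
    (fderiv ℝ (Gop ρ S J I F) (s, u) (0, v)) x = Real.exp (I u x + s * F x) * (L - I v x) := by
  refine fderiv_apply_eval (exists_strict ρ S J I F (s, u)).hasFDerivAt.differentiableAt ?_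
  simp only [Gop_apply]
  have h1 := hasDerivAt_MA ρ S J (u := u) (v := v) (x := x) (E := Real.exp (I u x + s * F x))
    (L := L) hρ fun i hi => by
      obtain ⟨h2, h3⟩ := hE i hi
      refine ⟨?_, by rw [h2], h3⟩
      rw [h2, isUnit_iff_ne_zero]
      exact_mod_cast (Real.exp_pos _).ne'
  have h2 : HasDerivAt (fun t : ℝ => I u x + t * I v x + s * F x) (I v x) 0 := by
    simpa using (((hasDerivAt_id (0:ℝ)).mul_const (I v x)).const_add (I u x)).add_const (s * F x)
  have h3 := h2.exp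
  simp only [zero_mul, add_zero] at h3
  have h4 := h1.sub h3
  have h5 : Real.exp (I u x + s * F x) * L - Real.exp (I u x + s * F x) * I v x =
      Real.exp (I u x + s * F x) * (L - I v x) := by ring
  rw [h5] at h4
  refine h4.congr_of_eventuallyEq (Eventually.of_forall fun t => ?_)
  simp

end

end Vale.Agent.P272.K.N
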