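import Vale.Agent.P272.K.LIN.Cov
import Vale.Agent.P272.K.N.MAop
import Vale.Agent.P272.K.N.Smooth

/-! Partition of unity and the coefficient functions of the Monge-Ampère operator on `X`. -/

open scoped Manifold ContDiff ComplexOrder Topology NNReal
open Complex Filter Metric Set

set_option maxSynthPendingDepth 3

noncomputable section

namespace Vale.Agent.P272.K.N

open Vale.Agent.P272.K Vale.Agent.P272.K.LIN

section
variable {n : ℕ} {X : Type*} [TopologicalSpace X] [ChartedSpace (Cm n) X]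

instance instRSm [IsManifold (modelWithCornersSelf ℂ (Cm n)) ω X] : RSm (Cm n) X where
  trans e he e' he' x hx hx' :=
    ((transition ⟨he, hx⟩ ⟨he', hx'⟩).restrict_scalars ℝ).of_le (by exact_mod_cast le_top)

theorem smoothFn_iff {u : X → ℝ} : SmoothFn (n := n) u ↔ CkFn (Cm n) ∞ u :=
  ⟨fun h e he x hx => h e x ⟨he, hx⟩, fun h e x hx => h e hx.1 x hx.2⟩

theorem c2Fn_iff {u : X → ℝ} : C2Fn (n := n) u ↔ CkFn (Cm n) 2 u :=
  ⟨fun h e he x hx => h e x ⟨he, hx⟩, fun h e x hx => h e hx.1 x hx.2⟩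

end

section
variable {E : Type*} [NormedAddCommGroup E] [NormedSpace ℝ E] [FiniteDimensional ℝ E]
  {X : Type*} [TopologicalSpace X] [ChartedSpace E X] (𝒞 : Cov E X)

/-- bump function equal to one on the ball of radius `r i` and supported in the ball of radius
`2 r i` -/
def sbump (i : Fin 𝒞.N) : ContDiffBump (𝒞.c i) where
  rIn := 𝒞.r i
  rOut := 2 * 𝒞.r i
  rIn_pos := 𝒞.r_pos i
  rIn_lt_rOut := by have := 𝒞.r_pos i; linarith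

/-- the corresponding function on `X` -/
def θ (i : Fin 𝒞.N) : X → ℝ := ext0 (𝒞.e i) (sbump 𝒞 i)

theorem θ_nonneg (i : Fin 𝒞.N) (x : X) : 0 ≤ θ 𝒞 i x := by
  unfold θ ext0
  exact indicator_nonneg (fun x _ => (sbump 𝒞 i).nonneg) x

theorem θ_ne_zero {i : Fin 𝒞.N} {x : X} (h : θ 𝒞 i x ≠ 0) :
    x ∈ (𝒞.e i).source ∧ 𝒞.e i x ∈ ball (𝒞.c i) (2 * 𝒞.r i) := by
  have hx : x ∈ (𝒞.e i).source := by
    by_contra hx
    exact h (ext0_of_notMem hx)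
  refine ⟨hx, ?_⟩
  by_contra h2
  apply h
  rw [θ, ext0_of_mem hx]
  apply (sbump 𝒞 i).zero_of_le_dist
  simpa [sbump] using h2

theorem θ_ck [T2Space X] [RSm E X] (i : Fin 𝒞.N) : CkFn E ∞ (θ 𝒞 i) :=
  ext0_ck le_rfl (𝒞.mem i) (K := closedBall (𝒞.c i) (3 * 𝒞.r i)) (isCompact_closedBall _ _)
    (𝒞.sub i) (fun y hy => by
      apply (sbump 𝒞 i).zero_of_le_dist
      simp only [mem_closedBall, not_le] at hy
      have := 𝒞.r_pos i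
      show 2 * 𝒞.r i ≤ _
      linarith) fun y _ => (sbump 𝒞 i).contDiffAt

theorem θ_sum_pos (x : X) : 0 < ∑ i, θ 𝒞 i x := by
  obtain ⟨i, hx, hi⟩ := 𝒞.cover x
  have h1 : θ 𝒞 i x = 1 := by
    rw [θ, ext0_of_mem hx]
    exact (sbump 𝒞 i).one_of_mem_closedBall (ball_subset_closedBall hi)
  calc (0:ℝ) < θ 𝒞 i x := by rw [h1]; exact one_pos
    _ ≤ ∑ i, θ 𝒞 i x := Finset.single_le_sum (f := fun i => θ 𝒞 i x)
        (fun i _ => θ_nonneg 𝒞 i x) (Finset.mem_univ i)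

/-- the partition of unity -/
def pu (i : Fin 𝒞.N) (x : X) : ℝ := θ 𝒞 i x / ∑ j, θ 𝒞 j x

theorem pu_ck [T2Space X] [RSm E X] (i : Fin 𝒞.N) : CkFn E ∞ (pu 𝒞 i) :=
  (θ_ck 𝒞 i).div (CkFn.sum fun j _ => θ_ck 𝒞 j) fun x => (θ_sum_pos 𝒞 x).ne'

theorem pu_sum (x : X) : ∑ i, pu 𝒞 i x = 1 := by
  unfold pu
  rw [← Finset.sum_div]
  exact div_self (θ_sum_pos 𝒞 x).ne'

theorem pu_ne_zero {i : Fin 𝒞.N} {x : X} (h : pu 𝒞 i x ≠ 0) :
    x ∈ (𝒞.e i).source ∧ 𝒞.e i x ∈ ball (𝒞.c i) (2 * 𝒞.r i) :=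
  θ_ne_zero 𝒞 fun h0 => h (by rw [pu, h0, zero_div])

variable [CompactSpace X] [T2Space X] [RSm E X] {α : ℝ} (h0 : 0 < α) (h1 : α ≤ 1)

/-- the partition of unity in the Hölder algebra -/
def puH (i : Fin 𝒞.N) : Hol (𝒞.w α) ℝ := 𝒞.ofCk h0 h1 (pu 𝒞 i) ((pu_ck 𝒞 i).of_le (by simp))

@[simp] theorem puH_apply (i : Fin 𝒞.N) (x : X) : puH 𝒞 h0 h1 i x = pu 𝒞 i x := rfl

/-- a smooth function in the `i`-th chart, cut off, as an element of the Hölder algebra -/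
def cutH {V : Type*} [NormedAddCommGroup V] [NormedSpace ℝ V] (i : Fin 𝒞.N) (g : E → V)
    (hg : ∀ y ∈ (𝒞.e i).target, ContDiffAt ℝ ∞ g y) : Hol (𝒞.w α) V :=
  𝒞.ofCk h0 h1 (fun x => 𝒞.η i x • g (𝒞.e i x)) ((𝒞.η_smul_ck i le_rfl hg).of_le (by simp))

@[simp] theorem cutH_apply {V : Type*} [NormedAddCommGroup V] [NormedSpace ℝ V] (i : Fin 𝒞.N)
    (g : E → V) (hg : ∀ y ∈ (𝒞.e i).target, ContDiffAt ℝ ∞ g y) (x : X) :
    cutH 𝒞 h0 h1 i g hg x = 𝒞.η i x • g (𝒞.e i x) := rfl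

end

section
variable {n : ℕ} {X : Type*} [TopologicalSpace X] [ChartedSpace (Cm n) X]
  [CompactSpace X] [T2Space X] [IsManifold (modelWithCornersSelf ℂ (Cm n)) ω X]
  (𝒞 : Cov (Cm n) X) {α : ℝ} (h0 : 0 < α) (h1 : α ≤ 1)
  {χ : Chart n X → Cm n → Matrix (Fin n) (Fin n) ℂ} (hχ : IsHermitian χ)

include hχ in
theorem inv_smooth (i : Fin 𝒞.N) (j k : Fin n) (y : Cm n) (hy : y ∈ (𝒞.e i).target) :
    ContDiffAt ℝ ∞ (fun y => (χ (𝒞.e i) y)⁻¹ j k) y :=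
  contDiffAt_inv (fun a b => hχ.smooth_target (𝒞.mem i) hy a b)
    (hχ.det_ne_zero_target (𝒞.mem i) hy) j k

/-- the matrices `η_i χ_i⁻¹` in the Hölder algebra -/
def SH (i : Fin 𝒞.N) : Matrix (Fin n) (Fin n) (Hol (𝒞.w α) ℂ) :=
  Matrix.of fun j k => cutH 𝒞 h0 h1 i (fun y => (χ (𝒞.e i) y)⁻¹ j k) (inv_smooth 𝒞 hχ i j k)

theorem evM_SH (i : Fin 𝒞.N) (x : X) :
    evM (SH 𝒞 h0 h1 hχ i) x = (𝒞.η i x : ℂ) • (χ (𝒞.e i) (𝒞.e i x))⁻¹ := by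
  ext j k
  simp [SH, evM_apply]

theorem evM_SH_of_eq_one {i : Fin 𝒞.N} {x : X} (h : 𝒞.η i x = 1) :
    evM (SH 𝒞 h0 h1 hχ i) x = (χ (𝒞.e i) (𝒞.e i x))⁻¹ := by
  rw [evM_SH, h]; simp

end

end Vale.Agent.P272.K.N
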