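import Mathlib.Analysis.Calculus.InverseFunctionTheorem.FDeriv
import Mathlib.Topology.Order.IntermediateValue
import Mathlib.Analysis.Calculus.FDeriv.Prod

/-! Abstract continuity method (block N of P272/K). -/

open Set Filter Topology

namespace Vale.Agent.P272.K.N

/-- **Continuity method.** `G (s, u) = 0`, `s ∈ [0,1]`, `u` in the open set `P` of a Banach space.
Openness: the partial derivative in `u` is surjective at every solution. Closedness: all solutions
lie in a closed set `K ⊆ P`, and solutions with nearby parameters are near each other. -/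
theorem continuity_method {E F : Type*} [NormedAddCommGroup E] [NormedSpace ℝ E] [CompleteSpace E]
    [NormedAddCommGroup F] [NormedSpace ℝ F] [CompleteSpace F]
    (G : ℝ × E → F) (P : Set E) (hP : IsOpen P) (G' : ℝ × E → (ℝ × E →L[ℝ] F))
    (hG : ∀ s u, s ∈ Icc (0:ℝ) 1 → u ∈ P → HasStrictFDerivAt G (G' (s, u)) (s, u))
    (hsurj : ∀ s u, s ∈ Icc (0:ℝ) 1 → u ∈ P → G (s, u) = 0 → ∀ f, ∃ v, G' (s, u) (0, v) = f)
    (K : Set E) (hKc : IsClosed K) (hKP : K ⊆ P)
    (hK : ∀ s u, s ∈ Icc (0:ℝ) 1 → u ∈ P → G (s, u) = 0 → u ∈ K)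
    (hcauchy : ∀ ε > 0, ∃ δ > 0, ∀ s s' u u', s ∈ Icc (0:ℝ) 1 → s' ∈ Icc (0:ℝ) 1 → |s - s'| < δ →
      u ∈ P → u' ∈ P → G (s, u) = 0 → G (s', u') = 0 → ‖u - u'‖ < ε)
    (h0 : ∃ u ∈ P, G (0, u) = 0) :
    ∃ u ∈ P, G (1, u) = 0 := by
  classical
  set S : Set ℝ := {s | ∃ u ∈ P, G (s, u) = 0} with hS
  have key : Icc (0:ℝ) 1 ⊆ S := by
    refine IsClosed.Icc_subset_of_forall_mem_nhdsWithin ?_ h0 ?_
    · -- closedness
      refine isClosed_of_closure_subset fun s hs => ?_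
      have hs01 : s ∈ Icc (0:ℝ) 1 := by
        have := closure_mono (inter_subset_right : S ∩ Icc 0 1 ⊆ Icc 0 1) hs
        rwa [isClosed_Icc.closure_eq] at this
      obtain ⟨x, hx, hxs⟩ := mem_closure_iff_seq_limit.1 hs
      choose u hu using fun k => (hx k).1
      have hC : CauchySeq u := by
        rw [Metric.cauchySeq_iff]
        intro ε hε
        obtain ⟨δ, hδ, hd⟩ := hcauchy ε hε
        obtain ⟨N, hN⟩ := Metric.cauchySeq_iff.1 hxs.cauchySeq δ hδ
        refine ⟨N, fun m hm k hk => ?_⟩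
        rw [dist_eq_norm]
        exact hd _ _ _ _ (hx m).2 (hx k).2 (by simpa [Real.dist_eq] using hN m hm k hk)
          (hu m).1 (hu k).1 (hu m).2 (hu k).2
      obtain ⟨v, hv⟩ := cauchySeq_tendsto_of_complete hC
      have hvK : v ∈ K := hKc.mem_of_tendsto hv
        (Eventually.of_forall fun k => hK _ _ (hx k).2 (hu k).1 (hu k).2)
      refine ⟨⟨v, hKP hvK, ?_⟩, hs01⟩
      have hcont : ContinuousAt G (s, v) := (hG s v hs01 (hKP hvK)).continuousAt
      have h1 : Tendsto (fun k => G (x k, u k)) atTop (𝓝 (G (s, v))) :=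
        hcont.tendsto.comp (hxs.prodMk_nhds hv)
      have h2 : (fun k => G (x k, u k)) = fun _ => 0 := funext fun k => (hu k).2
      rw [h2] at h1
      exact (tendsto_nhds_unique h1 tendsto_const_nhds)
    · -- openness
      rintro s ⟨⟨u, hu, hGu⟩, hs⟩
      have hs01 : s ∈ Icc (0:ℝ) 1 := ⟨hs.1, hs.2.le⟩
      have hstrict := hG s u hs01 hu
      let Ψ : ℝ × E → ℝ × F := fun p => (p.1, G p)
      let Ψ' : ℝ × E →L[ℝ] ℝ × F := (ContinuousLinearMap.fst ℝ ℝ E).prod (G' (s, u))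
      have hΨ : HasStrictFDerivAt Ψ Ψ' (s, u) :=
        (hasStrictFDerivAt_fst (p := (s, u))).prodMk hstrict
      have hrange : LinearMap.range (Ψ' : ℝ × E →ₗ[ℝ] ℝ × F) = ⊤ := by
        rw [LinearMap.range_eq_top]
        rintro ⟨t, f⟩
        obtain ⟨v, hv⟩ := hsurj s u hs01 hu hGu (f - G' (s, u) (t, 0))
        refine ⟨(t, v), ?_⟩
        have : ((t, v) : ℝ × E) = (t, 0) + (0, v) := by simp
        show ((t, v).1, G' (s, u) (t, v)) = (t, f)
        rw [this, map_add, hv]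
        simp
      have hmap : map Ψ (𝓝 (s, u)) = 𝓝 (Ψ (s, u)) := hΨ.map_nhds_eq_of_surj hrange
      have hPn : {p : ℝ × E | p.2 ∈ P} ∈ 𝓝 (s, u) :=
        (hP.preimage continuous_snd).mem_nhds hu
      have hmem : Ψ '' {p : ℝ × E | p.2 ∈ P} ∈ 𝓝 ((s, 0) : ℝ × F) := by
        have := image_mem_map (m := Ψ) hPn
        rw [hmap] at this
        simpa [Ψ, hGu] using this
      have hev : ∀ᶠ t in 𝓝 s, ((t, 0) : ℝ × F) ∈ Ψ '' {p : ℝ × E | p.2 ∈ P} := by
        have hc : Tendsto (fun t : ℝ => ((t, 0) : ℝ × F)) (𝓝 s) (𝓝 (s, 0)) :=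
          (Continuous.prodMk_left (0:F)).tendsto s
        exact hc hmem
      refine mem_nhdsWithin_of_mem_nhds (hev.mono ?_)
      rintro t ⟨⟨t', u'⟩, hu', heq⟩
      simp only [Ψ, Prod.mk.injEq] at heq
      obtain ⟨rfl, h⟩ := heq
      exact ⟨u', hu', h⟩
  exact key ⟨zero_le_one, le_rfl⟩

end Vale.Agent.P272.K.N
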