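import Vale.Agent.P272.K.N.Positive
import Vale.Agent.P272.K.N.Continuity
import Vale.Agent.P272.K.EST.Stmt
import Vale.Agent.P272.K.LIN.Jet

/-! Assembly of the continuity method: the Aubin-Yau theorem from the analytic blocks. -/

open scoped Manifold ContDiff ComplexOrder Topology NNReal
open Complex Filter Metric Set

set_option maxSynthPendingDepth 3
set_option linter.unusedSectionVars false

noncomputable section

namespace Vale.Agent.P272.K.N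

open Vale.Agent.P272.K Vale.Agent.P272.K.LIN

/-- Interpolation between `C⁰` and `C^{2,β}` (block I3). -/
def InterpStatement {E : Type*} [NormedAddCommGroup E] [NormedSpace ℝ E] [FiniteDimensional ℝ E]
    {X : Type*} [TopologicalSpace X] [ChartedSpace E X] (𝒞 : Cov E X) (α β : ℝ) : Prop :=
  ∀ (R : Fin 𝒞.N → ℝ) (_ : ∀ i, 3 * 𝒞.r i < R i)
    (_ : ∀ i, closedBall (𝒞.c i) (R i) ⊆ (𝒞.e i).target) (M : ℝ),
    ∀ δ > 0, ∃ ε > 0, ∀ f : X → ℝ, CkFn E 2 f → (∀ x, |f x| ≤ ε) →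
      (∀ i, ∀ y ∈ closedBall (𝒞.c i) (R i), ∀ y' ∈ closedBall (𝒞.c i) (R i),
        ‖fderiv ℝ (fderiv ℝ fun z => f ((𝒞.e i).symm z)) y -
          fderiv ℝ (fderiv ℝ fun z => f ((𝒞.e i).symm z)) y'‖ ≤ M * ‖y - y'‖ ^ β) →
      (∀ x, |f x| ≤ δ) ∧ (∀ x y, |f x - f y| ≤ δ * 𝒞.d x y ^ α) ∧
      ∀ i, (∀ x, ‖𝒞.η i x • jet (fun z => f ((𝒞.e i).symm z)) (𝒞.e i x)‖ ≤ δ) ∧
        ∀ x y, ‖𝒞.η i x • jet (fun z => f ((𝒞.e i).symm z)) (𝒞.e i x) -
          𝒞.η i y • jet (fun z => f ((𝒞.e i).symm z)) (𝒞.e i y)‖ ≤ δ * 𝒞.d x y ^ α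

section
variable {n : ℕ} {X : Type*} [TopologicalSpace X] [ChartedSpace (Cm n) X]
  {𝒞 : Cov (Cm n) X} {α : ℝ} {V : Type*} [NormedAddCommGroup V] [NormedSpace ℝ V]

/-- The norm of `C^{2,α}(X)` is controlled by the Hölder norms of the cut off jets. -/
def NormCrit (D : C2Data 𝒞 α V) : Prop :=
  ∃ C : ℝ, ∀ (v : V) (δ : ℝ), 0 ≤ δ → (∀ x, |D.I v x| ≤ δ) →
    (∀ x y, |D.I v x - D.I v y| ≤ δ * 𝒞.d x y ^ α) →
    (∀ i x, ‖𝒞.η i x • jet (fun z => (D.I v : X → ℝ) ((𝒞.e i).symm z)) (𝒞.e i x)‖ ≤ δ) →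
    (∀ i x y, ‖𝒞.η i x • jet (fun z => (D.I v : X → ℝ) ((𝒞.e i).symm z)) (𝒞.e i x) -
      𝒞.η i y • jet (fun z => (D.I v : X → ℝ) ((𝒞.e i).symm z)) (𝒞.e i y)‖ ≤
        δ * 𝒞.d x y ^ α) → ‖v‖ ≤ C * δ

variable (D : C2Data 𝒞 α V) {χ : Chart n X → Cm n → Matrix (Fin n) (Fin n) ℂ}
  [IsManifold (modelWithCornersSelf ℂ (Cm n)) ω X] (hχ : IsHermitian χ)
  [CompactSpace X] [T2Space X]

/-- second derivatives of elements of `C^{2,α}(X)` are locally Hölder in the charts of the cover -/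
theorem local_holder (h0 : 0 < α) (v : V) (x : X) : ∃ e : Chart n X, At e x ∧ ∃ r > 0, ∃ C : ℝ,
    ∀ y ∈ ball (e x) r, ∀ z ∈ ball (e x) r,
      ‖fderiv ℝ (fderiv ℝ fun z => (D.I v : X → ℝ) (e.symm z)) y -
        fderiv ℝ (fderiv ℝ fun z => (D.I v : X → ℝ) (e.symm z)) z‖ ≤ C * ‖y - z‖ ^ α := by
  obtain ⟨i, hx, hi⟩ := 𝒞.cover x
  have hr := 𝒞.r_pos i
  have hsub : closedBall (𝒞.c i) (2 * 𝒞.r i) ⊆ (𝒞.e i).target :=
    (closedBall_subset_closedBall (by linarith)).trans (𝒞.sub i)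
  obtain ⟨C, hC0, hC⟩ := 𝒞.symm_lip (𝒞.mem i) (isCompact_closedBall (𝒞.c i) (2 * 𝒞.r i)) hsub
  refine ⟨𝒞.e i, ⟨𝒞.mem i, hx⟩, 𝒞.r i, hr, (D.J i v).N1 * C ^ α, ?_⟩
  have hball : ball (𝒞.e i x) (𝒞.r i) ⊆ closedBall (𝒞.c i) (2 * 𝒞.r i) := by
    intro y hy
    rw [mem_ball] at hy hi
    rw [mem_closedBall]
    linarith [dist_triangle y (𝒞.e i x) (𝒞.c i)]
  have hJ : ∀ y ∈ closedBall (𝒞.c i) (2 * 𝒞.r i), D.J i v ((𝒞.e i).symm y) =
      fderiv ℝ (fderiv ℝ fun z => (D.I v : X → ℝ) ((𝒞.e i).symm z)) y := by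
    intro y hy
    have hyt := hsub hy
    rw [D.J_apply, (𝒞.e i).right_inv hyt,
      𝒞.η_eq_one ((𝒞.e i).map_target hyt) (by rw [(𝒞.e i).right_inv hyt]; exact hy), one_smul]
  intro y hy z hz
  rw [← hJ y (hball hy), ← hJ z (hball hz)]
  refine ((D.J i v).le_N1 _ _).trans ?_
  rw [𝒞.coe_w, mul_assoc]
  refine mul_le_mul_of_nonneg_left ?_ (Hol.N1_nonneg _)
  rw [← Real.mul_rpow hC0 (norm_nonneg _)]
  exact Real.rpow_le_rpow (𝒞.d_nonneg _ _) (hC y (hball hy) z (hball hz)) h0.le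

theorem exists_radii : ∃ R : Fin 𝒞.N → ℝ, (∀ i, 3 * 𝒞.r i < R i) ∧
    ∀ i, closedBall (𝒞.c i) (R i) ⊆ (𝒞.e i).target := by
  have h : ∀ i, ∃ R : ℝ, 3 * 𝒞.r i < R ∧ closedBall (𝒞.c i) R ⊆ (𝒞.e i).target := by
    intro i
    have hr := 𝒞.r_pos i
    obtain ⟨δ, hδ, h⟩ := (isCompact_closedBall (𝒞.c i) (3 * 𝒞.r i)).exists_cthickening_subset_open
      (𝒞.e i).open_target (𝒞.sub i)
    refine ⟨3 * 𝒞.r i + δ, by linarith, ?_⟩
    rw [cthickening_closedBall hδ.le (by linarith)] at h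
    rwa [add_comm] at h
  choose R h1 h2 using h
  exact ⟨R, h1, h2⟩

end

section
variable {n : ℕ} {X : Type} [TopologicalSpace X] [ChartedSpace (Cm n) X]
  {𝒞 : Cov (Cm n) X} {α : ℝ} {V : Type} [NormedAddCommGroup V] [NormedSpace ℝ V]
  (D : C2Data 𝒞 α V) {χ : Chart n X → Cm n → Matrix (Fin n) (Fin n) ℂ}
  [IsManifold (modelWithCornersSelf ℂ (Cm n)) ω X] (hχ : IsHermitian χ)
  [CompactSpace X] [T2Space X]

/-- solutions in `C^{2,α}(X)` are smooth -/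
theorem isSol_of (hReg : RegStatement (Cm n) α) (h0 : 0 < α) (h1 : α ≤ 1) {F : X → ℝ}
    (hF : SmoothFn (n := n) F) {FH : Hol (𝒞.w α) ℝ} (hFH : ∀ x, FH x = F x) {s : ℝ} {u : V}
    (hu : u ∈ posSet D χ) (hG : GX D hχ h0 h1 FH (s, u) = 0) :
    EST.IsSol (n := n) χ F s (D.I u : X → ℝ) := by
  have heq := (GX_eq_zero_iff D hχ h0 h1 hu).1 hG
  have heq' : ∀ (e : Chart n X) (x : X), At e x →
      Real.log (addH χ (D.I u : X → ℝ) e (e x)).det.re - Real.log (χ e (e x)).det.re =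
        D.I u x + s * F x := fun e x h => by rw [heq e x h, hFH]
  refine ⟨?_, hu, heq'⟩
  refine smoothFn_of_solution hReg hχ (F := fun x => s * F x) (fun e x h => ?_) (D.c2Fn u)
    (local_holder D h0 u) hu heq'
  exact contDiffAt_const.mul (hF e x h)

/-- **The Aubin-Yau theorem from the analytic blocks.** -/
theorem solve (hχ' : IsKahler χ) [CompleteSpace V] (hEst : EST.EstStatement n X)
    (h0 : 0 < α) {β : ℝ} (hαβ : α < β) (hβ : β < 1) (hReg : RegStatement (Cm n) α)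
    (hLT : LTStatement D) (hN : NormCrit D) (hI : InterpStatement 𝒞 α β) {F : X → ℝ}
    (hF : SmoothFn (n := n) F) :
    ∃ u : X → ℝ, SmoothFn (n := n) u ∧ (∀ e x, At e x → (addH χ u e (e x)).PosDef) ∧
      ∀ e x, At e x → Real.log (addH χ u e (e x)).det.re - Real.log (χ e (e x)).det.re =
        u x + F x := by
  have h1 : α ≤ 1 := (hαβ.trans hβ).le
  have hχ : IsHermitian χ := hχ'.toIsHermitian
  let FH : Hol (𝒞.w α) ℝ := 𝒞.ofCk h0 h1 F ((smoothFn_iff.1 hF).of_le (by simp))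
  have hFH : ∀ x, FH x = F x := fun x => rfl
  obtain ⟨⟨c, hc, hEc⟩, hEb⟩ := hEst χ hχ' F hF β (h0.trans hαβ) hβ
  obtain ⟨R, hR, hRt⟩ := exists_radii (𝒞 := 𝒞)
  choose Mi hMi using fun i => hEb (𝒞.e i) (𝒞.mem i) (𝒞.c i) (R i) (hRt i)
  obtain ⟨M, hM0, hM⟩ := Cov.exists_le_all Mi
  obtain ⟨C, hC⟩ := hN
  have hC0 : ∀ v : V, ∀ δ : ℝ, 0 ≤ δ → (∀ x, |D.I v x| ≤ δ) →
    (∀ x y, |D.I v x - D.I v y| ≤ δ * 𝒞.d x y ^ α) →
    (∀ i x, ‖𝒞.η i x • jet (fun z => (D.I v : X → ℝ) ((𝒞.e i).symm z)) (𝒞.e i x)‖ ≤ δ) →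
    (∀ i x y, ‖𝒞.η i x • jet (fun z => (D.I v : X → ℝ) ((𝒞.e i).symm z)) (𝒞.e i x) -
      𝒞.η i y • jet (fun z => (D.I v : X → ℝ) ((𝒞.e i).symm z)) (𝒞.e i y)‖ ≤
        δ * 𝒞.d x y ^ α) → ‖v‖ ≤ |C| * δ := fun v δ hδ a1 a2 a3 a4 =>
    (hC v δ hδ a1 a2 a3 a4).trans (mul_le_mul_of_nonneg_right (le_abs_self C) hδ)
  have hFbd : ∃ A : ℝ, 0 < A ∧ ∀ x, |F x| ≤ A := by
    refine ⟨‖FH‖ + 1, by positivity, fun x => ?_⟩
    have := FH.norm_apply_le x
    rw [hFH, Real.norm_eq_abs] at this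
    linarith
  obtain ⟨A, hA, hFA⟩ := hFbd
  have hsol : ∀ s u, u ∈ posSet D χ → GX D hχ h0 h1 FH (s, u) = 0 →
      EST.IsSol (n := n) χ F s (D.I u : X → ℝ) := fun s u hu hG =>
    isSol_of D hχ hReg h0 h1 hF hFH hu hG
  obtain ⟨u, hu, hG⟩ := continuity_method (GX D hχ h0 h1 FH) (posSet D χ)
    (isOpen_posSet D hχ h0) (fun p => fderiv ℝ (GX D hχ h0 h1 FH) p)
    (fun s u _ _ => exists_strict _ _ _ _ _ (s, u))
    (fun s u _ hu hG f => fderiv_surj D hχ h0 h1 hLT hu hG f)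
    (posC D χ c) (isClosed_posC D c) (posC_subset D hχ hc)
    (fun s u hs hu hG i x hx hi ξ => by
      have hr := 𝒞.r_pos i
      have h2 := hEc s hs _ (hsol s u hu hG) (𝒞.e i) x ⟨𝒞.mem i, hx⟩
      have h3 := quad_nonneg h2 ξ
      rw [quad_sub, quad_smul_mat, Complex.sub_re, Complex.re_ofReal_mul,
        D.addH_eq u hx (closedBall_subset_closedBall (by linarith) hi)] at h3
      linarith)
    (fun ε hε => by
      obtain ⟨ε1, hε1, hint⟩ := hI R hR hRt (2 * M) (ε / (2 * (|C| + 1))) (by positivity)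
      refine ⟨ε1 / A, by positivity, fun s s' u u' hs hs' hss hu hu' hG hG' => ?_⟩
      have hS := hsol s u hu hG
      have hS' := hsol s' u' hu' hG'
      have hIsub : ∀ x, D.I (u - u') x = D.I u x - D.I u' x := fun x => by
        rw [map_sub, Hol.sub_apply]
      have hfun : (fun x => D.I (u - u') x) = fun x => D.I u x - D.I u' x := funext hIsub
      have h2 := hint (fun x => D.I (u - u') x) (D.ck2 _) (fun x => by
        rw [hIsub]
        refine (abs_sub_le_of_solution (D.c2Fn u) (D.c2Fn u') hu hu' hS.eq hS'.eq hFA x).trans ?_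
        rw [lt_div_iff₀ hA] at hss
        exact hss.le) (fun i y hy y' hy' => by
        have e1 : ∀ y ∈ closedBall (𝒞.c i) (R i),
            fderiv ℝ (fderiv ℝ fun z => (D.I (u - u') : X → ℝ) ((𝒞.e i).symm z)) y =
            fderiv ℝ (fderiv ℝ fun z => (D.I u : X → ℝ) ((𝒞.e i).symm z)) y -
            fderiv ℝ (fderiv ℝ fun z => (D.I u' : X → ℝ) ((𝒞.e i).symm z)) y := by
          intro y hy
          have h3 := (D.ck2 u).at_target (𝒞.mem i) (hRt i hy)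
          have h4 := (D.ck2 u').at_target (𝒞.mem i) (hRt i hy)
          rw [← fderiv2_sub h3 h4]
          have : (fun z => (D.I (u - u') : X → ℝ) ((𝒞.e i).symm z)) =
            fun z => (D.I u : X → ℝ) ((𝒞.e i).symm z) - (D.I u' : X → ℝ) ((𝒞.e i).symm z) :=
            funext fun z => hIsub _
          rw [this]
        rw [e1 y hy, e1 y' hy']
        have h5 := hMi i s hs _ hS y hy y' hy'
        have h6 := hMi i s' hs' _ hS' y hy y' hy'
        have h7 : 0 ≤ ‖y - y'‖ ^ β := by positivity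
        have h8 : Mi i * ‖y - y'‖ ^ β ≤ M * ‖y - y'‖ ^ β := mul_le_mul_of_nonneg_right (hM i) h7
        rw [sub_sub_sub_comm]
        refine (norm_sub_le _ _).trans ?_
        linarith)
      obtain ⟨a1, a2, a3⟩ := h2
      have h9 := hC0 (u - u') (ε / (2 * (|C| + 1))) (by positivity) a1 a2
        (fun i x => (a3 i).1 x) (fun i x y => (a3 i).2 x y)
      refine h9.trans_lt ?_
      rw [← mul_div_assoc, div_lt_iff₀ (by positivity)]
      have := abs_nonneg C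
      nlinarith)
    ⟨0, by
      have h0' : ((D.I 0 : Hol (𝒞.w α) ℝ) : X → ℝ) = fun _ => 0 := by
        rw [map_zero]; rfl
      have hp : (0 : V) ∈ posSet D χ := by
        intro e x h
        rw [h0', addH_zero]
        exact hχ.posDef e x h
      refine ⟨hp, (GX_eq_zero_iff D hχ h0 h1 hp).2 fun e x h => ?_⟩
      rw [h0', addH_zero]
      simp⟩
  have hS := hsol 1 u hu hG
  refine ⟨D.I u, hS.smooth, hS.pos, fun e x h => ?_⟩
  rw [hS.eq e x h, one_mul]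

end

end Vale.Agent.P272.K.N
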