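import Vale.Agent.P272.K.LIN.C2
import Vale.Agent.P272.K.N.InterpX

/-!
# Interpolation in the Banach space `C^{2,α}(X)`
-/

set_option maxSynthPendingDepth 3

open Metric Set Filter Topology
open scoped ContDiff NNReal

noncomputable section

namespace Vale.Agent.P272.K.N

open Vale.Agent.P272.K.LIN

variable {E : Type*} [NormedAddCommGroup E] [NormedSpace ℝ E] [FiniteDimensional ℝ E]
  {X : Type*} [TopologicalSpace X] [T2Space X] [ChartedSpace E X] [RSm E X]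

/-- **Interpolation in `C^{2,α}(X)`.** -/
theorem interp_C2 (𝒞 : Cov E X) {α β : ℝ} (h0 : 0 < α) (h1 : α ≤ 1) (hαβ : α < β)
    (R : Fin 𝒞.N → ℝ) (hR : ∀ i, 3 * 𝒞.r i < R i)
    (hRt : ∀ i, closedBall (𝒞.c i) (R i) ⊆ (𝒞.e i).target) (M : Fin 𝒞.N → ℝ)
    {δ : ℝ} (hδ : 0 < δ) :
    ∃ ε > 0, ∀ v : 𝒞.C2 α, (∀ x, |𝒞.fn v x| ≤ ε) →
      (∀ i, ∀ y ∈ closedBall (𝒞.c i) (R i), ∀ y' ∈ closedBall (𝒞.c i) (R i),
        ‖fderiv ℝ (fderiv ℝ fun z => 𝒞.fn v ((𝒞.e i).symm z)) y -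
          fderiv ℝ (fderiv ℝ fun z => 𝒞.fn v ((𝒞.e i).symm z)) y'‖ ≤ M i * ‖y - y'‖ ^ β) →
      ‖v‖ ≤ δ := by
  obtain ⟨ε, hε, h⟩ := exists_c2_small 𝒞 h0 h1 hαβ R hR hRt M (half_pos hδ)
  refine ⟨ε, hε, fun v hs hH => ?_⟩
  obtain ⟨h2, h3, h4, h5⟩ := h (𝒞.fn v) (𝒞.fn_ck v) hs hH
  refine 𝒞.norm_C2_le hδ.le ?_ fun i => ?_
  · have := Hol.norm_le_of (f := 𝒞.incl α v) (half_pos hδ).le (half_pos hδ).le
      (fun x => h2 x) (fun x y => h3 x y)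
    linarith
  · have := Hol.norm_le_of (f := 𝒞.J α i v) (half_pos hδ).le (half_pos hδ).le
      (fun x => by rw [𝒞.J_apply]; exact h4 i x)
      (fun x y => by rw [𝒞.J_apply, 𝒞.J_apply]; exact h5 i x y)
    linarith

end Vale.Agent.P272.K.N
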