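import Vale.Agent.P272.K.N.Solve

/-! Surjectivity of the linearisation, from the linear theorem (block LT). -/

open scoped Manifold ContDiff ComplexOrder Topology NNReal
open Complex Filter Metric Set

set_option maxSynthPendingDepth 3

noncomputable section

namespace Vale.Agent.P272.K.N

open Vale.Agent.P272.K Vale.Agent.P272.K.LIN

section
variable {n : ℕ} {X : Type*} [TopologicalSpace X] [ChartedSpace (Cm n) X]
  {𝒞 : Cov (Cm n) X} {α : ℝ} {V : Type*} [NormedAddCommGroup V] [NormedSpace ℝ V]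

/-- Statement of block LT: `v - L v = f` is solvable. -/
def LTStatement (D : C2Data 𝒞 α V) : Prop :=
  ∀ (L : V →L[ℝ] Hol (𝒞.w α) ℝ) (a : Fin 𝒞.N → Cm n → (Bil n →L[ℝ] ℝ))
    (_ : ∀ i, ∃ K, ∀ y ∈ ball (𝒞.c i) (2 * 𝒞.r i), ∀ y' ∈ ball (𝒞.c i) (2 * 𝒞.r i),
      ‖a i y - a i y'‖ ≤ K * ‖y - y'‖ ^ α)
    (_ : ∀ i, ∀ y ∈ ball (𝒞.c i) (2 * 𝒞.r i), ∀ ξ : Cm n →L[ℝ] ℝ, ξ ≠ 0 →
      0 < a i y (ξ.smulRight ξ))
    (_ : ∀ i v x, x ∈ (𝒞.e i).source → 𝒞.e i x ∈ ball (𝒞.c i) (2 * 𝒞.r i) →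
      L v x = a i (𝒞.e i x)
        (fderiv ℝ (fderiv ℝ fun y => (D.I v : X → ℝ) ((𝒞.e i).symm y)) (𝒞.e i x))),
    ∀ f, ∃ v, D.I v - L v = f

/-- `z ↦ (B ↦ Re (z * lev B k j))` -/
def coefL (j k : Fin n) : ℂ →L[ℝ] (Bil n →L[ℝ] ℝ) :=
  (ContinuousLinearMap.compL ℝ (Bil n) ℂ ℝ Complex.reCLM).comp
    (((ContinuousLinearMap.compL ℝ (Bil n) ℂ ℂ).flip (levL k j)).comp
      (ContinuousLinearMap.mul ℝ ℂ))

theorem coefL_apply (j k : Fin n) (z : ℂ) (B : Bil n) : coefL j k z B = (z * lev B k j).re := rfl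

variable (D : C2Data 𝒞 α V) {χ : Chart n X → Cm n → Matrix (Fin n) (Fin n) ℂ}
  [IsManifold (modelWithCornersSelf ℂ (Cm n)) ω X] (hχ : IsHermitian χ)
  [CompactSpace X] [T2Space X] (h0 : 0 < α) (h1 : α ≤ 1)

omit [CompactSpace X] [T2Space X] [ChartedSpace (Cm n) X] [TopologicalSpace X] in
theorem inv_of_det {M : Matrix (Fin n) (Fin n) ℂ} {c : ℂ} (h : M.det = c) :
    c⁻¹ • M.adjugate = M⁻¹ := by
  rw [Matrix.inv_def, h, Ring.inverse_eq_inv']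

/-- the inverse of the metric `χ + i∂∂̄u` in the Hölder algebra -/
def invG (F : Hol (𝒞.w α) ℝ) (s : ℝ) (u : V) (i : Fin 𝒞.N) :
    Matrix (Fin n) (Fin n) (Hol (𝒞.w α) ℂ) :=
  Hol.map Complex.ofRealCLM (NormedSpace.exp (-(D.I u + s • F))) •
    ((relM (SH 𝒞 h0 h1 hχ i) (D.J i) u).adjugate * SH 𝒞 h0 h1 hχ i)

theorem evM_invG {F : Hol (𝒞.w α) ℝ} {s : ℝ} {u : V}
    (hp : ∀ e x, At e x → (addH χ (D.I u : X → ℝ) e (e x)).PosDef)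
    (heq : ∀ e x, At e x →
      Real.log (addH χ (D.I u : X → ℝ) e (e x)).det.re - Real.log (χ e (e x)).det.re =
        D.I u x + s * F x) {i : Fin 𝒞.N} {x : X} (hx : x ∈ (𝒞.e i).source)
    (hi : 𝒞.e i x ∈ closedBall (𝒞.c i) (2 * 𝒞.r i)) :
    evM (invG D hχ h0 h1 F s u i) x = (addH χ (D.I u : X → ℝ) (𝒞.e i) (𝒞.e i x))⁻¹ := by
  have hAt : At (𝒞.e i) x := ⟨𝒞.mem i, hx⟩
  have hχi := hχ.posDef _ _ hAt
  have hgi := hp _ _ hAt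
  have h2 : 0 < (addH χ (D.I u : X → ℝ) (𝒞.e i) (𝒞.e i x)).det.re :=
    (Complex.pos_iff.1 hgi.det_pos).1
  have h3 : 0 < (χ (𝒞.e i) (𝒞.e i x)).det.re := (Complex.pos_iff.1 hχi.det_pos).1
  have hχu : IsUnit (χ (𝒞.e i) (𝒞.e i x)).det := isUnit_iff_ne_zero.2 hχi.det_pos.ne'
  have e1 : evM (invG D hχ h0 h1 F s u i) x = ((Real.exp (-(D.I u x + s * F x)) : ℝ) : ℂ) •
      (evM ((relM (SH 𝒞 h0 h1 hχ i) (D.J i) u).adjugate * SH 𝒞 h0 h1 hχ i) x) := by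
    ext j k
    simp only [invG, evM_apply, Matrix.smul_apply, smul_eq_mul, Hol.mul_apply, Hol.map_apply,
      Hol.exp_apply, Hol.neg_apply, Hol.add_apply, Hol.smul_apply, Real.exp_eq_exp_ℝ,
      Complex.ofRealCLM_apply]
  have e2 : evM (relM (SH 𝒞 h0 h1 hχ i) (D.J i) u) x =
      (χ (𝒞.e i) (𝒞.e i x))⁻¹ * addH χ (D.I u : X → ℝ) (𝒞.e i) (𝒞.e i x) := by
    rw [relM, evM_add, evM_one, evM_mul, evM_levH]
    exact relM_eval D hχ h0 h1 u hx hi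
  have e3 : ((χ (𝒞.e i) (𝒞.e i x))⁻¹ * addH χ (D.I u : X → ℝ) (𝒞.e i) (𝒞.e i x)).det =
      (Real.exp (D.I u x + s * F x) : ℂ) := by
    rw [det_inv_mul hχi hgi, ← heq _ _ hAt, ← Real.log_div h2.ne' h3.ne',
      Real.exp_log (div_pos h2 h3)]
  have e4 : ((Real.exp (-(D.I u x + s * F x)) : ℝ) : ℂ) •
      ((χ (𝒞.e i) (𝒞.e i x))⁻¹ * addH χ (D.I u : X → ℝ) (𝒞.e i) (𝒞.e i x)).adjugate =
      ((χ (𝒞.e i) (𝒞.e i x))⁻¹ * addH χ (D.I u : X → ℝ) (𝒞.e i) (𝒞.e i x))⁻¹ := by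
    rw [Real.exp_neg, Complex.ofReal_inv]
    exact inv_of_det e3
  rw [e1, evM_mul, evM_adjugate, e2, evM_SH_of_eq_one 𝒞 h0 h1 hχ (𝒞.η_eq_one hx hi),
    ← Matrix.smul_mul, e4, Matrix.mul_inv_rev, Matrix.nonsing_inv_nonsing_inv _ hχu,
    Matrix.mul_assoc, Matrix.mul_nonsing_inv _ hχu, Matrix.mul_one]

/-- the coefficient of the Laplacian of `χ + i∂∂̄u` in the Hölder space -/
def coefH (F : Hol (𝒞.w α) ℝ) (s : ℝ) (u : V) (i : Fin 𝒞.N) : Hol (𝒞.w α) (Bil n →L[ℝ] ℝ) :=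
  ∑ j, ∑ k, Hol.map (coefL j k) (invG D hχ h0 h1 F s u i j k)

theorem coefH_apply {F : Hol (𝒞.w α) ℝ} {s : ℝ} {u : V}
    (hp : ∀ e x, At e x → (addH χ (D.I u : X → ℝ) e (e x)).PosDef)
    (heq : ∀ e x, At e x →
      Real.log (addH χ (D.I u : X → ℝ) e (e x)).det.re - Real.log (χ e (e x)).det.re =
        D.I u x + s * F x) {i : Fin 𝒞.N} {x : X} (hx : x ∈ (𝒞.e i).source)
    (hi : 𝒞.e i x ∈ closedBall (𝒞.c i) (2 * 𝒞.r i)) (B : Bil n) :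
    coefH D hχ h0 h1 F s u i x B =
      ((addH χ (D.I u : X → ℝ) (𝒞.e i) (𝒞.e i x))⁻¹ * lev B).trace.re := by
  rw [← evM_invG D hχ h0 h1 hp heq hx hi, coefH, Hol.sum_apply]
  simp only [Hol.sum_apply, Hol.map_apply, _root_.sum_apply, coefL_apply, Matrix.trace,
    Matrix.diag_apply, Matrix.mul_apply, Complex.re_sum, evM_apply]

/-- **Surjectivity of the linearisation.** -/
theorem fderiv_surj (hLT : LTStatement D) {F : Hol (𝒞.w α) ℝ} {s : ℝ} {u : V}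
    (hp : ∀ e x, At e x → (addH χ (D.I u : X → ℝ) e (e x)).PosDef)
    (hG : GX D hχ h0 h1 F (s, u) = 0) (f : Hol (𝒞.w α) ℝ) :
    ∃ v, fderiv ℝ (GX D hχ h0 h1 F) (s, u) (0, v) = f := by
  have heq := (GX_eq_zero_iff D hχ h0 h1 hp).1 hG
  let m : Hol (𝒞.w α) ℝ := NormedSpace.exp (-(D.I u + s • F))
  have hm : ∀ x, m x = Real.exp (-(D.I u x + s * F x)) := by
    intro x
    simp only [m, Hol.exp_apply, Hol.neg_apply, Hol.add_apply, Hol.smul_apply, smul_eq_mul]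
    rw [Real.exp_eq_exp_ℝ]
  let DG : V →L[ℝ] Hol (𝒞.w α) ℝ :=
    (fderiv ℝ (GX D hχ h0 h1 F) (s, u)).comp (ContinuousLinearMap.inr ℝ ℝ V)
  have hDG : ∀ v, DG v = fderiv ℝ (GX D hχ h0 h1 F) (s, u) (0, v) := fun v => rfl
  let L : V →L[ℝ] Hol (𝒞.w α) ℝ := (ContinuousLinearMap.mul ℝ (Hol (𝒞.w α) ℝ) m).comp DG + D.I
  have hL : ∀ (v : V) (e : Chart n X) (x : X), At e x → L v x =
      ((addH χ (D.I u : X → ℝ) e (e x))⁻¹ *
        cHess (fun y => (D.I v : X → ℝ) (e.symm y)) (e x)).trace.re := by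
    intro v e x h
    show m x * (DG v x) + D.I v x = _
    rw [hDG, fderiv_GX D hχ h0 h1 hp hG v h, hm, ← mul_assoc, ← Real.exp_add]
    simp
  have hA : ∀ i, ∃ K, ∀ y ∈ ball (𝒞.c i) (2 * 𝒞.r i), ∀ y' ∈ ball (𝒞.c i) (2 * 𝒞.r i),
      ‖coefH D hχ h0 h1 F s u i ((𝒞.e i).symm y) - coefH D hχ h0 h1 F s u i ((𝒞.e i).symm y')‖ ≤
        K * ‖y - y'‖ ^ α := by
    intro i
    have hr := 𝒞.r_pos i
    have hsub : closedBall (𝒞.c i) (2 * 𝒞.r i) ⊆ (𝒞.e i).target :=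
      (closedBall_subset_closedBall (by linarith)).trans (𝒞.sub i)
    obtain ⟨C, hC0, hC⟩ := 𝒞.symm_lip (𝒞.mem i) (isCompact_closedBall (𝒞.c i) (2 * 𝒞.r i)) hsub
    refine ⟨(coefH D hχ h0 h1 F s u i).N1 * C ^ α, fun y hy y' hy' => ?_⟩
    refine ((coefH D hχ h0 h1 F s u i).le_N1 _ _).trans ?_
    rw [𝒞.coe_w, mul_assoc]
    refine mul_le_mul_of_nonneg_left ?_ (Hol.N1_nonneg _)
    rw [← Real.mul_rpow hC0 (norm_nonneg _)]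
    exact Real.rpow_le_rpow (𝒞.d_nonneg _ _)
      (hC y (ball_subset_closedBall hy) y' (ball_subset_closedBall hy')) h0.le
  have hB : ∀ i, ∀ y ∈ ball (𝒞.c i) (2 * 𝒞.r i), ∀ ξ : Cm n →L[ℝ] ℝ, ξ ≠ 0 →
      0 < coefH D hχ h0 h1 F s u i ((𝒞.e i).symm y) (ξ.smulRight ξ) := by
    intro i y hy ξ hξ
    have hr := 𝒞.r_pos i
    have hyt : y ∈ (𝒞.e i).target := 𝒞.sub' (by linarith) hy
    have hys := (𝒞.e i).map_target hyt
    have hyy := (𝒞.e i).right_inv hyt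
    have h2 := coefH_apply D hχ h0 h1 hp heq hys (by rw [hyy]; exact ball_subset_closedBall hy)
      (ξ.smulRight ξ)
    rw [h2]
    exact trace_inv_lev_pos (hp _ _ ⟨𝒞.mem i, hys⟩) hξ
  have hC : ∀ i v x, x ∈ (𝒞.e i).source → 𝒞.e i x ∈ ball (𝒞.c i) (2 * 𝒞.r i) →
      L v x = coefH D hχ h0 h1 F s u i ((𝒞.e i).symm (𝒞.e i x))
        (fderiv ℝ (fderiv ℝ fun y => (D.I v : X → ℝ) ((𝒞.e i).symm y)) (𝒞.e i x)) := by
    intro i v x hx hi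
    rw [(𝒞.e i).left_inv hx, coefH_apply D hχ h0 h1 hp heq hx (ball_subset_closedBall hi),
      hL v (𝒞.e i) x ⟨𝒞.mem i, hx⟩, cHess_eq_lev]
    exact diffble2 (D.c2Fn v (𝒞.e i) x ⟨𝒞.mem i, hx⟩)
  obtain ⟨v, hv⟩ := hLT L (fun i y => coefH D hχ h0 h1 F s u i ((𝒞.e i).symm y)) hA hB hC (-(m * f))
  refine ⟨v, ?_⟩
  ext x
  have h2 := congrArg (fun g : Hol (𝒞.w α) ℝ => g x) hv
  have h3 : D.I v x - (m x * (DG v x) + D.I v x) = -(m x * f x) := h2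
  have h4 : m x ≠ 0 := by rw [hm]; exact (Real.exp_pos _).ne'
  have h5 : m x * (DG v x) = m x * f x := by linarith
  have h6 := mul_left_cancel₀ h4 h5
  rw [← hDG]; exact h6

end

end Vale.Agent.P272.K.N
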