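import Vale.Agent.P272.K.N.Det
import Vale.Agent.P272.K.Inv.Consts
import Mathlib.Analysis.SpecialFunctions.Log.Deriv
import Mathlib.Analysis.Calculus.Deriv.Prod

/-! The Monge-Ampère equation as a smooth elliptic equation `Φ(x, u, D²u) = 0` in a chart. -/

open scoped ContDiff ComplexOrder Topology
open Complex Filter

set_option maxSynthPendingDepth 3

noncomputable section

namespace Vale.Agent.P272.K.N

open Vale.Agent.P272.K

variable {n : ℕ}

/-- `Φ(x, y, M) = log det (χ(x) + lev M) - log det χ(x) - y - f(x)` -/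
def Phi (χ : Cm n → Matrix (Fin n) (Fin n) ℂ) (f : Cm n → ℝ) (p : Cm n × ℝ × Bil n) : ℝ :=
  Real.log (χ p.1 + lev p.2.2).det.re - Real.log (χ p.1).det.re - p.2.1 - f p.1

theorem contDiff_lev (j k : Fin n) : ContDiff ℝ ∞ fun B : Bil n => lev B j k := by
  simp only [lev_apply]
  have h : ∀ v w : Cm n, ContDiff ℝ ∞ fun B : Bil n => ((B v w : ℝ) : ℂ) := fun v w =>
    Complex.ofRealCLM.contDiff.comp ((contDiff_id.clm_apply contDiff_const).clm_apply contDiff_const)
  have h2 : (fun B : Bil n => (((B (Pi.single j 1) (Pi.single k 1) +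
      B (Pi.single j I) (Pi.single k I) : ℝ) : ℂ) +
      I * ((B (Pi.single j 1) (Pi.single k I) - B (Pi.single j I) (Pi.single k 1) : ℝ) : ℂ)) / 4) =
      fun B : Bil n => (((B (Pi.single j 1) (Pi.single k 1) : ℝ) : ℂ) +
      ((B (Pi.single j I) (Pi.single k I) : ℝ) : ℂ) +
      I * (((B (Pi.single j 1) (Pi.single k I) : ℝ) : ℂ) -
        ((B (Pi.single j I) (Pi.single k 1) : ℝ) : ℂ))) / 4 := by
    funext B; push_cast; ring
  rw [h2]
  exact (((h _ _).add (h _ _)).add (contDiff_const.mul ((h _ _).sub (h _ _)))).div_const 4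

theorem contDiffAt_Phi {χ : Cm n → Matrix (Fin n) (Fin n) ℂ} {f : Cm n → ℝ}
    {p : Cm n × ℝ × Bil n} (hχ : ∀ i j, ContDiffAt ℝ ∞ (fun z => χ z i j) p.1)
    (hf : ContDiffAt ℝ ∞ f p.1) (h0 : (χ p.1).det.re ≠ 0) (h1 : (χ p.1 + lev p.2.2).det.re ≠ 0) :
    ContDiffAt ℝ ∞ (Phi χ f) p := by
  have e1 : ContDiffAt ℝ ∞ (fun p : Cm n × ℝ × Bil n => (χ p.1 + lev p.2.2).det) p := by
    have h : ∀ i j, ContDiffAt ℝ ∞ (fun p : Cm n × ℝ × Bil n => (χ p.1 + lev p.2.2) i j) p := by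
      intro i j
      have h2 : ContDiffAt ℝ ∞ (fun p : Cm n × ℝ × Bil n => χ p.1 i j) p :=
        (hχ i j).comp p contDiffAt_fst
      have h3 : ContDiffAt ℝ ∞ (fun p : Cm n × ℝ × Bil n => lev p.2.2 i j) p :=
        ((contDiff_lev i j).comp (contDiff_snd.comp contDiff_snd)).contDiffAt
      exact h2.add h3
    simp only [Matrix.det_apply]
    refine ContDiffAt.sum fun σ _ => ?_
    refine ContDiffAt.const_smul _ ?_
    exact contDiffAt_prod fun i _ => h _ _
  have e2 : ContDiffAt ℝ ∞ (fun p : Cm n × ℝ × Bil n => (χ p.1).det) p :=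
    ContDiffAt.comp p (g := fun z => (χ z).det) (contDiffAt_det hχ) contDiffAt_fst
  have e3 := (Complex.reCLM.contDiff.contDiffAt.comp p e1).log h1
  have e4 := (Complex.reCLM.contDiff.contDiffAt.comp p e2).log h0
  have e5 : ContDiffAt ℝ ∞ (fun p : Cm n × ℝ × Bil n => p.2.1) p :=
    (contDiff_fst.comp contDiff_snd).contDiffAt
  have e6 : ContDiffAt ℝ ∞ (fun p : Cm n × ℝ × Bil n => f p.1) p := hf.comp p contDiffAt_fst
  exact ((e3.sub e4).sub e5).sub e6

theorem det_eq_re {g : Matrix (Fin n) (Fin n) ℂ} (hg : g.PosDef) : g.det = (g.det.re : ℂ) := by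
  have h := (Complex.pos_iff.1 hg.det_pos).2
  apply Complex.ext
  · simp
  · simpa using h.symm

theorem hasDerivAt_log_det {g H : Matrix (Fin n) (Fin n) ℂ} (hg : g.PosDef) :
    HasDerivAt (fun t : ℝ => Real.log (g + (t : ℂ) • H).det.re) (g⁻¹ * H).trace.re 0 := by
  have hpos : 0 < g.det.re := (Complex.pos_iff.1 hg.det_pos).1
  have h1 := hasDerivAt_det_line g H (isUnit_iff_ne_zero.2 hg.det_pos.ne')
  have h2 := Complex.reCLM.hasFDerivAt.comp_hasDerivAt (0:ℝ) h1
  have h3 : reCLM (g.det * (g⁻¹ * H).trace) = g.det.re * (g⁻¹ * H).trace.re := by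
    rw [det_eq_re hg]; simp
  rw [h3] at h2
  have h4 : HasDerivAt (fun t : ℝ => (g + (t : ℂ) • H).det.re) (g.det.re * (g⁻¹ * H).trace.re) 0 :=
    h2
  have h5 := h4.log (by simpa using hpos.ne')
  have h6 : g.det.re * (g⁻¹ * H).trace.re / (g + ((0:ℝ) : ℂ) • H).det.re = (g⁻¹ * H).trace.re := by
    simp only [Complex.ofReal_zero, zero_smul, add_zero]
    field_simp
  rwa [h6] at h5

/-- the derivative of `Φ` in the direction of the second derivatives -/
theorem fderiv_Phi {χ : Cm n → Matrix (Fin n) (Fin n) ℂ} {f : Cm n → ℝ}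
    {p : Cm n × ℝ × Bil n} (hχ : ∀ i j, ContDiffAt ℝ ∞ (fun z => χ z i j) p.1)
    (hf : ContDiffAt ℝ ∞ f p.1) (h0 : (χ p.1).det.re ≠ 0) (h1 : (χ p.1 + lev p.2.2).PosDef)
    (B : Bil n) :
    fderiv ℝ (Phi χ f) p (0, 0, B) = ((χ p.1 + lev p.2.2)⁻¹ * lev B).trace.re := by
  have hpos : 0 < (χ p.1 + lev p.2.2).det.re := (Complex.pos_iff.1 h1.det_pos).1
  have hd := (contDiffAt_Phi hχ hf h0 hpos.ne').differentiableAt (by simp)
  have hl : HasDerivAt (fun t : ℝ => p + t • ((0, 0, B) : Cm n × ℝ × Bil n)) (0, 0, B) 0 := by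
    simpa using ((hasDerivAt_id (0:ℝ)).smul_const ((0, 0, B) : Cm n × ℝ × Bil n)).const_add p
  have h2 : HasFDerivAt (Phi χ f) (fderiv ℝ (Phi χ f) p)
      (p + (0:ℝ) • ((0, 0, B) : Cm n × ℝ × Bil n)) := by simpa using hd.hasFDerivAt
  have h3 := h2.comp_hasDerivAt (0:ℝ) hl
  have h4 := (((hasDerivAt_log_det (H := lev B) h1).sub_const
    (Real.log (χ p.1).det.re)).sub_const p.2.1).sub_const (f p.1)
  refine h3.unique (h4.congr_of_eventuallyEq (Eventually.of_forall fun t => ?_))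
  simp only [Function.comp, Phi, Prod.fst_add, Prod.snd_add, Prod.smul_fst, Prod.smul_snd,
    smul_zero, add_zero, lev_add, lev_smul, add_assoc]

end Vale.Agent.P272.K.N
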