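import Vale.Agent.P272.K.N.Linear

/-! The set of admissible functions is open; uniform positivity is a closed condition. -/

open scoped Manifold ContDiff ComplexOrder Topology NNReal
open Complex Filter Metric Set

set_option maxSynthPendingDepth 3

set_option linter.unusedSectionVars false

noncomputable section

namespace Vale.Agent.P272.K.N

open Vale.Agent.P272.K Vale.Agent.P272.K.LIN

section
variable {E : Type*} [NormedAddCommGroup E] [NormedSpace ℝ E] [FiniteDimensional ℝ E]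
  {X : Type*} [TopologicalSpace X] [ChartedSpace E X] [T2Space X] [RSm E X] (𝒞 : Cov E X)
  {W : Type*} [NormedAddCommGroup W] [NormedSpace ℝ W] {α : ℝ}

/-- joint continuity of evaluation -/
theorem continuous_eval₂ (h0 : 0 < α) :
    Continuous fun p : Hol (𝒞.w α) W × X => p.1 p.2 := by
  rw [continuous_iff_continuousAt]
  rintro ⟨f, x⟩
  have h1 : Tendsto (fun p : Hol (𝒞.w α) W × X => ‖p.1 - f‖ + ‖f p.2 - f x‖) (𝓝 (f, x)) (𝓝 0) := by
    have h2 : Tendsto (fun p : Hol (𝒞.w α) W × X => ‖p.1 - f‖) (𝓝 (f, x)) (𝓝 0) := by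
      have : Continuous fun p : Hol (𝒞.w α) W × X => ‖p.1 - f‖ := by fun_prop
      simpa using this.tendsto (f, x)
    have h3 : Tendsto (fun p : Hol (𝒞.w α) W × X => ‖f p.2 - f x‖) (𝓝 (f, x)) (𝓝 0) := by
      have : Continuous fun p : Hol (𝒞.w α) W × X => ‖f p.2 - f x‖ :=
        (((𝒞.hol_continuous h0 f).comp continuous_snd).sub continuous_const).norm
      simpa using this.tendsto (f, x)
    simpa using h2.add h3
  rw [ContinuousAt, tendsto_iff_norm_sub_tendsto_zero]
  refine squeeze_zero (fun _ => norm_nonneg _) (fun p => ?_) h1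
  have h4 : p.1 p.2 - f x = (p.1 - f) p.2 + (f p.2 - f x) := by
    rw [Hol.sub_apply]; abel
  rw [h4]
  exact (norm_add_le _ _).trans (add_le_add (Hol.norm_apply_le _ _) le_rfl)

end

section
variable {n : ℕ} {X : Type*} [TopologicalSpace X] [ChartedSpace (Cm n) X]
  {𝒞 : Cov (Cm n) X} {α : ℝ} {V : Type*} [NormedAddCommGroup V] [NormedSpace ℝ V]
  (D : C2Data 𝒞 α V) {χ : Chart n X → Cm n → Matrix (Fin n) (Fin n) ℂ}
  [IsManifold (modelWithCornersSelf ℂ (Cm n)) ω X] (hχ : IsHermitian χ)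

/-- admissible functions -/
def posSet (χ : Chart n X → Cm n → Matrix (Fin n) (Fin n) ℂ) : Set V :=
  {u | ∀ e x, At e x → (addH χ (D.I u : X → ℝ) e (e x)).PosDef}

/-- functions with `χ + i∂∂̄u ≥ c χ` (in the charts of the cover) -/
def posC (χ : Chart n X → Cm n → Matrix (Fin n) (Fin n) ℂ) (c : ℝ) : Set V :=
  {u | ∀ i x, x ∈ (𝒞.e i).source → 𝒞.e i x ∈ closedBall (𝒞.c i) (𝒞.r i) → ∀ ξ : Cm n,
    c * (quad (χ (𝒞.e i) (𝒞.e i x)) ξ).re ≤
      (quad (χ (𝒞.e i) (𝒞.e i x) + lev (D.J i u x)) ξ).re}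

theorem addH_isHermitian {u : X → ℝ} (hu : C2Fn (n := n) u) (hχ : IsHermitian χ)
    {e : Chart n X} {x : X} (h : At e x) : (addH χ u e (e x)).IsHermitian :=
  (hχ.posDef e x h).isHermitian.add (cHess_isHermitian (hu e x h))

theorem C2Data.addH_eq (u : V) {i : Fin 𝒞.N} {x : X} (hx : x ∈ (𝒞.e i).source)
    (hi : 𝒞.e i x ∈ closedBall (𝒞.c i) (2 * 𝒞.r i)) :
    addH χ (D.I u : X → ℝ) (𝒞.e i) (𝒞.e i x) = χ (𝒞.e i) (𝒞.e i x) + lev (D.J i u x) := by
  rw [D.lev_J u hx hi, addH]

include hχ in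
/-- positivity in one chart at `x` implies positivity in all charts at `x` -/
theorem posDef_of_chart {u : X → ℝ} (hu : C2Fn (n := n) u) {e e' : Chart n X} {x : X}
    (h : At e x) (h' : At e' x) (hp : (addH χ u e (e x)).PosDef) :
    (addH χ u e' (e' x)).PosDef := by
  rw [isForm_addH hχ hu e' e x h' h]
  exact posDef_form hp (jacM_isUnit h' h)

theorem quad_add (M N : Matrix (Fin n) (Fin n) ℂ) (ξ : Cm n) :
    quad (M + N) ξ = quad M ξ + quad N ξ := by
  simp only [quad, Matrix.add_apply, add_mul, Finset.sum_add_distrib]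

theorem quad_sub (M N : Matrix (Fin n) (Fin n) ℂ) (ξ : Cm n) :
    quad (M - N) ξ = quad M ξ - quad N ξ := by
  simp only [quad, Matrix.sub_apply, sub_mul, Finset.sum_sub_distrib]

theorem quad_smul_mat (c : ℂ) (M : Matrix (Fin n) (Fin n) ℂ) (ξ : Cm n) :
    quad (c • M) ξ = c * quad M ξ := by
  simp only [quad, Matrix.smul_apply, smul_eq_mul, Finset.mul_sum, mul_assoc]

include hχ in
theorem posC_subset {c : ℝ} (hc : 0 < c) : posC D χ c ⊆ posSet D χ := by
  intro u hu e x h
  obtain ⟨i, hx, hi⟩ := 𝒞.cover x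
  have hr := 𝒞.r_pos i
  have hi' := ball_subset_closedBall hi
  have hi2 : 𝒞.e i x ∈ closedBall (𝒞.c i) (2 * 𝒞.r i) :=
    closedBall_subset_closedBall (by linarith) hi'
  have hAt : At (𝒞.e i) x := ⟨𝒞.mem i, hx⟩
  refine posDef_of_chart hχ (D.c2Fn u) hAt h ?_
  refine posDef_of_quad (addH_isHermitian (D.c2Fn u) hχ hAt) fun ξ hξ => ?_
  rw [D.addH_eq u hx hi2]
  exact (mul_pos hc (quad_pos (hχ.posDef _ _ hAt) hξ)).trans_le (hu i x hx hi' ξ)

variable [CompactSpace X] [T2Space X]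

theorem continuous_quad_lev (ξ : Cm n) : Continuous fun B : Bil n => (quad (lev B) ξ).re := by
  refine Complex.continuous_re.comp ?_
  unfold quad
  refine continuous_finsetSum _ fun i _ => continuous_finsetSum _ fun j _ => ?_
  exact (contDiff_lev i j).continuous.mul continuous_const

omit [IsManifold (modelWithCornersSelf ℂ (Cm n)) ω X] [CompactSpace X] [T2Space X] in
theorem isClosed_posC (c : ℝ) : IsClosed (posC D χ c) := by
  unfold posC
  simp only [Set.ofPred_forall]
  refine isClosed_iInter fun i => isClosed_iInter fun x => isClosed_iInter fun _ =>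
    isClosed_iInter fun _ => isClosed_iInter fun ξ => ?_
  refine isClosed_le continuous_const ?_
  simp only [quad_add, Complex.add_re]
  exact continuous_const.add ((continuous_quad_lev ξ).comp
    ((Hol.continuous_eval x).comp (D.J i).continuous))

include hχ in
theorem isOpen_posSet (h0 : 0 < α) : IsOpen (posSet D χ) := by
  rw [isOpen_iff_mem_nhds]
  intro u0 hu0
  -- it suffices to have positivity on the compact pieces
  let K : Fin 𝒞.N → Set X := fun i => (𝒞.e i).symm '' closedBall (𝒞.c i) (𝒞.r i)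
  have hsub : ∀ i, closedBall (𝒞.c i) (𝒞.r i) ⊆ (𝒞.e i).target := fun i => by
    have hr := 𝒞.r_pos i
    exact (closedBall_subset_closedBall (by linarith)).trans (𝒞.sub i)
  have hK : ∀ i, IsCompact (K i) := fun i =>
    (isCompact_closedBall _ _).image_of_continuousOn ((𝒞.e i).continuousOn_symm.mono (hsub i))
  have hKx : ∀ i, ∀ x ∈ K i, x ∈ (𝒞.e i).source ∧ 𝒞.e i x ∈ closedBall (𝒞.c i) (𝒞.r i) := by
    rintro i x ⟨y, hy, rfl⟩
    refine ⟨(𝒞.e i).map_target (hsub i hy), ?_⟩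
    rw [(𝒞.e i).right_inv (hsub i hy)]
    exact hy
  have hsuff : {u : V | ∀ i, ∀ x ∈ K i,
      (addH χ (D.I u : X → ℝ) (𝒞.e i) (𝒞.e i x)).PosDef} ⊆ posSet D χ := by
    intro u hu e x h
    obtain ⟨i, hx, hi⟩ := 𝒞.cover x
    have hxK : x ∈ K i := ⟨𝒞.e i x, ball_subset_closedBall hi, (𝒞.e i).left_inv hx⟩
    exact posDef_of_chart hχ (D.c2Fn u) ⟨𝒞.mem i, hx⟩ h (hu i x hxK)
  refine mem_of_superset ?_ hsuff
  have hfin : ∀ i, ∀ᶠ u in 𝓝 u0, ∀ x ∈ K i,
      (addH χ (D.I u : X → ℝ) (𝒞.e i) (𝒞.e i x)).PosDef := by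
    intro i
    refine (hK i).eventually_forall_of_forall_eventually fun x hxK => ?_
    obtain ⟨hx, hi⟩ := hKx i x hxK
    have hr := 𝒞.r_pos i
    have hAt : At (𝒞.e i) x := ⟨𝒞.mem i, hx⟩
    obtain ⟨ε, hε, hnear⟩ := posDef_of_near (hu0 _ _ hAt)
    -- continuity of the entries
    have hi2 : 𝒞.e i x ∈ closedBall (𝒞.c i) (2 * 𝒞.r i) :=
      closedBall_subset_closedBall (by linarith) hi
    let M : V × X → Matrix (Fin n) (Fin n) ℂ := fun p =>
      χ (𝒞.e i) (𝒞.e i p.2) + lev (D.J i p.1 p.2)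
    have hMc : ∀ j k, ContinuousAt (fun p : V × X => M p j k) (u0, x) := by
      intro j k
      have h1 : ContinuousAt (fun p : V × X => χ (𝒞.e i) (𝒞.e i p.2) j k) (u0, x) := by
        have h2 : ContinuousAt (fun y => χ (𝒞.e i) y j k) (𝒞.e i x) :=
          (hχ.smooth _ _ hAt j k).continuousAt
        have h3 : ContinuousAt (fun y : X => χ (𝒞.e i) (𝒞.e i y) j k) x :=
          ContinuousAt.comp (f := 𝒞.e i) (g := fun y => χ (𝒞.e i) y j k) h2
            ((𝒞.e i).continuousAt hx)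
        exact ContinuousAt.comp (f := fun p : V × X => p.2)
          (g := fun y : X => χ (𝒞.e i) (𝒞.e i y) j k) h3 continuousAt_snd
      have h4 : Continuous fun p : V × X => lev (D.J i p.1 p.2) j k := by
        have h5 : Continuous fun p : V × X => D.J i p.1 p.2 :=
          (continuous_eval₂ 𝒞 h0).comp
            (((D.J i).continuous.comp continuous_fst).prodMk continuous_snd)
        exact (contDiff_lev j k).continuous.comp h5
      exact h1.add h4.continuousAt
    have hev : ∀ᶠ p : V × X in 𝓝 (u0, x), ∀ j k, ‖M p j k - M (u0, x) j k‖ ≤ ε := by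
      rw [eventually_all]
      intro j
      rw [eventually_all]
      intro k
      have h1 : Tendsto (fun p : V × X => ‖M p j k - M (u0, x) j k‖) (𝓝 (u0, x)) (𝓝 0) := by
        have := ((hMc j k).sub (continuousAt_const (y := M (u0, x) j k))).norm
        simpa using this.tendsto
      exact (h1.eventually (gt_mem_nhds hε)).mono fun p hp => hp.le
    have hsrc : ∀ᶠ p : V × X in 𝓝 (u0, x), p.2 ∈ (𝒞.e i).source ∧
        𝒞.e i p.2 ∈ closedBall (𝒞.c i) (2 * 𝒞.r i) := by
      have h1 : ∀ᶠ y in 𝓝 x, y ∈ (𝒞.e i).source := (𝒞.e i).open_source.mem_nhds hx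
      have h2 : ∀ᶠ y in 𝓝 x, 𝒞.e i y ∈ ball (𝒞.c i) (2 * 𝒞.r i) :=
        ((𝒞.e i).continuousAt hx).eventually (isOpen_ball.mem_nhds
          (closedBall_subset_ball (by linarith) hi))
      have h3 := (continuousAt_snd (p := (u0, x))).eventually (h1.and h2)
      exact h3.mono fun p hp => ⟨hp.1, ball_subset_closedBall hp.2⟩
    have hfinal : ∀ᶠ p : V × X in 𝓝 (u0, x),
        (addH χ (D.I p.1 : X → ℝ) (𝒞.e i) (𝒞.e i p.2)).PosDef := by
      filter_upwards [hev, hsrc] with p hp1 hp2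
      have e1 := D.addH_eq (χ := χ) p.1 hp2.1 hp2.2
      have e2 := D.addH_eq (χ := χ) u0 hx hi2
      refine hnear _ (addH_isHermitian (D.c2Fn p.1) hχ ⟨𝒞.mem i, hp2.1⟩) fun j k => ?_
      rw [e1, e2]
      exact hp1 j k
    exact hfinal
  exact eventually_all.2 hfin

end

end Vale.Agent.P272.K.N
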