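import Vale.Agent.P272.K.N.Setup

/-! The equation on `X` and its linearisation. -/

open scoped Manifold ContDiff ComplexOrder Topology NNReal
open Complex Filter Metric Set

set_option maxSynthPendingDepth 3

noncomputable section

namespace Vale.Agent.P272.K.N

open Vale.Agent.P272.K Vale.Agent.P272.K.LIN

/-- What we need from the Banach space `C^{2,α}(X)`. -/
structure C2Data {n : ℕ} {X : Type*} [TopologicalSpace X] [ChartedSpace (Cm n) X]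
    (𝒞 : Cov (Cm n) X) (α : ℝ) (V : Type*) [NormedAddCommGroup V] [NormedSpace ℝ V] where
  /-- the inclusion in `C^α(X)` -/
  I : V →L[ℝ] Hol (𝒞.w α) ℝ
  /-- the second derivatives in the charts, cut off -/
  J : Fin 𝒞.N → V →L[ℝ] Hol (𝒞.w α) (Bil n)
  ck2 : ∀ v, CkFn (Cm n) 2 (I v : X → ℝ)
  J_apply : ∀ i v x, J i v x =
    𝒞.η i x • fderiv ℝ (fderiv ℝ fun y => (I v : X → ℝ) ((𝒞.e i).symm y)) (𝒞.e i x)

section
variable {n : ℕ} {X : Type*} [TopologicalSpace X] [ChartedSpace (Cm n) X]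
  {𝒞 : Cov (Cm n) X} {α : ℝ} {V : Type*} [NormedAddCommGroup V] [NormedSpace ℝ V]
  (D : C2Data 𝒞 α V)

theorem C2Data.c2Fn (v : V) : C2Fn (n := n) (D.I v : X → ℝ) := c2Fn_iff.2 (D.ck2 v)

theorem C2Data.lev_J (v : V) {i : Fin 𝒞.N} {x : X} (hx : x ∈ (𝒞.e i).source)
    (hi : 𝒞.e i x ∈ closedBall (𝒞.c i) (2 * 𝒞.r i)) :
    lev (D.J i v x) = cHess (fun y => (D.I v : X → ℝ) ((𝒞.e i).symm y)) (𝒞.e i x) := by
  rw [D.J_apply, 𝒞.η_eq_one hx hi, one_smul, cHess_eq_lev]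
  exact diffble2 (D.c2Fn v (𝒞.e i) x ⟨𝒞.mem i, hx⟩)

variable {χ : Chart n X → Cm n → Matrix (Fin n) (Fin n) ℂ}
  [IsManifold (modelWithCornersSelf ℂ (Cm n)) ω X] (hχ : IsHermitian χ)

include hχ in
theorem isForm_addH {u : X → ℝ} (hu : C2Fn (n := n) u) : IsForm (addH χ u) :=
  hχ.isForm.add (isForm_cHess hu)

variable [CompactSpace X] [T2Space X] (h0 : 0 < α) (h1 : α ≤ 1)

theorem relM_eval (u : V) {i : Fin 𝒞.N} {x : X} (hx : x ∈ (𝒞.e i).source)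
    (hi : 𝒞.e i x ∈ closedBall (𝒞.c i) (2 * 𝒞.r i)) :
    1 + evM (SH 𝒞 h0 h1 hχ i) x * lev (D.J i u x) =
      (χ (𝒞.e i) (𝒞.e i x))⁻¹ * addH χ (D.I u : X → ℝ) (𝒞.e i) (𝒞.e i x) := by
  rw [evM_SH_of_eq_one 𝒞 h0 h1 hχ (𝒞.η_eq_one hx hi), D.lev_J u hx hi, addH, Matrix.mul_add,
    Matrix.nonsing_inv_mul]
  rw [isUnit_iff_ne_zero]
  exact hχ.det_ne_zero_target (𝒞.mem i) ((𝒞.e i).map_source hx)

include hχ in
theorem det_ratio {u : X → ℝ} (hu : C2Fn (n := n) u)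
    {e e' : Chart n X} {x : X} (h : At e x) (h' : At e' x) :
    (addH χ u e (e x)).det.re / (χ e (e x)).det.re =
      (addH χ u e' (e' x)).det.re / (χ e' (e' x)).det.re := by
  rw [det_form_re (isForm_addH hχ hu) h h', det_form_re hχ.isForm h h']
  refine mul_div_mul_left _ _ ?_
  have := norm_pos_iff.2 (jacM_det_ne_zero h h')
  positivity

theorem det_inv_mul {A B : Matrix (Fin n) (Fin n) ℂ} (hA : A.PosDef) (hB : B.PosDef) :
    (A⁻¹ * B).det = ((B.det.re / A.det.re : ℝ) : ℂ) := by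
  rw [Matrix.det_mul, Matrix.det_nonsing_inv, Ring.inverse_eq_inv', det_eq_re hA, det_eq_re hB]
  simp [div_eq_inv_mul]

/-- the value of the Monge-Ampère operator -/
theorem MA_eq {u : V} (hp : ∀ e x, At e x → (addH χ (D.I u : X → ℝ) e (e x)).PosDef)
    {e : Chart n X} {x : X} (h : At e x) :
    MA (puH 𝒞 h0 h1) (SH 𝒞 h0 h1 hχ) D.J u x =
      (addH χ (D.I u : X → ℝ) e (e x)).det.re / (χ e (e x)).det.re := by
  rw [MA_apply]
  have h2 : ∀ i, puH 𝒞 h0 h1 i x *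
      (1 + evM (SH 𝒞 h0 h1 hχ i) x * lev (D.J i u x)).det.re = pu 𝒞 i x *
      ((addH χ (D.I u : X → ℝ) e (e x)).det.re / (χ e (e x)).det.re) := by
    intro i
    rw [puH_apply]
    by_cases hi : pu 𝒞 i x = 0
    · rw [hi, zero_mul, zero_mul]
    obtain ⟨hx, hb⟩ := pu_ne_zero 𝒞 hi
    have hAt : At (𝒞.e i) x := ⟨𝒞.mem i, hx⟩
    rw [relM_eval D hχ h0 h1 u hx (ball_subset_closedBall hb),
      det_inv_mul (hχ.posDef _ _ hAt) (hp _ _ hAt), Complex.ofReal_re,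
      det_ratio hχ (D.c2Fn u) hAt h]
  rw [Finset.sum_congr rfl fun i _ => h2 i, ← Finset.sum_mul, pu_sum, one_mul]

/-- the operator of the continuity method on `X` -/
def GX (F : Hol (𝒞.w α) ℝ) : ℝ × V → Hol (𝒞.w α) ℝ :=
  Gop (puH 𝒞 h0 h1) (SH 𝒞 h0 h1 hχ) D.J D.I F

/-- `GX (s, u) = 0` is the Monge-Ampère equation. -/
theorem GX_eq_zero_iff {F : Hol (𝒞.w α) ℝ} {s : ℝ} {u : V}
    (hp : ∀ e x, At e x → (addH χ (D.I u : X → ℝ) e (e x)).PosDef) :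
    GX D hχ h0 h1 F (s, u) = 0 ↔ ∀ e x, At e x →
      Real.log (addH χ (D.I u : X → ℝ) e (e x)).det.re - Real.log (χ e (e x)).det.re =
        D.I u x + s * F x := by
  have key : ∀ e x, At e x → ((GX D hχ h0 h1 F (s, u)) x = 0 ↔
      Real.log (addH χ (D.I u : X → ℝ) e (e x)).det.re - Real.log (χ e (e x)).det.re =
        D.I u x + s * F x) := by
    intro e x h
    rw [GX, Gop_apply, MA_eq D hχ h0 h1 hp h, sub_eq_zero]
    have h2 : 0 < (addH χ (D.I u : X → ℝ) e (e x)).det.re :=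
      (Complex.pos_iff.1 (hp e x h).det_pos).1
    have h3 : 0 < (χ e (e x)).det.re := (Complex.pos_iff.1 (hχ.posDef e x h).det_pos).1
    rw [← Real.log_div h2.ne' h3.ne']
    constructor
    · intro h4
      rw [h4, Real.log_exp]
    · intro h4
      rw [← h4, Real.exp_log (div_pos h2 h3)]
  constructor
  · intro hG e x h
    refine (key e x h).1 ?_
    rw [hG]; rfl
  · intro hG
    ext x
    have hc : At (chartAt (Cm n) x : Chart n X) x :=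
      ⟨chart_mem_atlas (Cm n) x, mem_chart_source (Cm n) x⟩
    rw [(key _ x hc).2 (hG _ x hc)]
    rfl

theorem trace_aux {χ g H : Matrix (Fin n) (Fin n) ℂ} (hχu : IsUnit χ.det) :
    (χ⁻¹ * g)⁻¹ * (χ⁻¹ * H) = g⁻¹ * H := by
  rw [Matrix.mul_inv_rev, Matrix.nonsing_inv_nonsing_inv _ hχu, Matrix.mul_assoc,
    ← Matrix.mul_assoc χ, Matrix.mul_nonsing_inv _ hχu, Matrix.one_mul]

theorem lin_aux {F : Hol (𝒞.w α) ℝ} {s : ℝ} {u : V}
    (hp : ∀ e x, At e x → (addH χ (D.I u : X → ℝ) e (e x)).PosDef)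
    (heq : ∀ e x, At e x →
      Real.log (addH χ (D.I u : X → ℝ) e (e x)).det.re - Real.log (χ e (e x)).det.re =
        D.I u x + s * F x) (v : V) {e : Chart n X} {x : X} (h : At e x)
    (i : Fin 𝒞.N) (hi : puH 𝒞 h0 h1 i x ≠ 0) :
    (1 + evM (SH 𝒞 h0 h1 hχ i) x * lev (D.J i u x)).det =
        (Real.exp (D.I u x + s * F x) : ℂ) ∧
      ((1 + evM (SH 𝒞 h0 h1 hχ i) x * lev (D.J i u x))⁻¹ *
        (evM (SH 𝒞 h0 h1 hχ i) x * lev (D.J i v x))).trace.re =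
      ((addH χ (D.I u : X → ℝ) e (e x))⁻¹ *
        cHess (fun y => (D.I v : X → ℝ) (e.symm y)) (e x)).trace.re := by
  rw [puH_apply] at hi
  obtain ⟨hx, hb⟩ := pu_ne_zero 𝒞 hi
  have hAt : At (𝒞.e i) x := ⟨𝒞.mem i, hx⟩
  have hb' := ball_subset_closedBall hb
  have hχi := hχ.posDef _ _ hAt
  have hgi := hp _ _ hAt
  have h2 : 0 < (addH χ (D.I u : X → ℝ) (𝒞.e i) (𝒞.e i x)).det.re :=
    (Complex.pos_iff.1 hgi.det_pos).1
  have h3 : 0 < (χ (𝒞.e i) (𝒞.e i x)).det.re := (Complex.pos_iff.1 hχi.det_pos).1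
  have hχu : IsUnit (χ (𝒞.e i) (𝒞.e i x)).det := isUnit_iff_ne_zero.2 hχi.det_pos.ne'
  rw [relM_eval D hχ h0 h1 u hx hb']
  refine ⟨?_, ?_⟩
  · rw [det_inv_mul hχi hgi, ← heq _ _ hAt, ← Real.log_div h2.ne' h3.ne',
      Real.exp_log (div_pos h2 h3)]
  · rw [evM_SH_of_eq_one 𝒞 h0 h1 hχ (𝒞.η_eq_one hx hb'), D.lev_J v hx hb', trace_aux hχu]
    have key := trace_inv (b := addH χ (D.I u : X → ℝ))
      (c := fun e z => cHess (fun y => (D.I v : X → ℝ) (e.symm y)) z)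
      (isForm_addH hχ (D.c2Fn u)) (isForm_cHess (D.c2Fn v)) hAt h
    rw [key]

/-- **The linearisation** is `exp (u + s F) (Δ_g v - v)`. -/
theorem fderiv_GX {F : Hol (𝒞.w α) ℝ} {s : ℝ} {u : V}
    (hp : ∀ e x, At e x → (addH χ (D.I u : X → ℝ) e (e x)).PosDef)
    (hG : GX D hχ h0 h1 F (s, u) = 0) (v : V) {e : Chart n X} {x : X} (h : At e x) :
    (fderiv ℝ (GX D hχ h0 h1 F) (s, u) (0, v)) x = Real.exp (D.I u x + s * F x) *
      (((addH χ (D.I u : X → ℝ) e (e x))⁻¹ *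
        cHess (fun y => (D.I v : X → ℝ) (e.symm y)) (e x)).trace.re - D.I v x) := by
  have hρ : ∑ i, puH 𝒞 h0 h1 i x = 1 := pu_sum 𝒞 x
  have key := fderiv_Gop_apply (puH 𝒞 h0 h1) (SH 𝒞 h0 h1 hχ) D.J D.I F (s := s) (u := u) (v := v)
    (x := x) (L := ((addH χ (D.I u : X → ℝ) e (e x))⁻¹ *
        cHess (fun y => (D.I v : X → ℝ) (e.symm y)) (e x)).trace.re) hρ
    (lin_aux D hχ h0 h1 hp ((GX_eq_zero_iff D hχ h0 h1 hp).1 hG) v h)
  exact key

end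

end Vale.Agent.P272.K.N
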